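import Mathlib

/-! # P209 / Tetris (3/6): the domination inequality.  Owner: helper519.  Mathlib only. -/

set_option linter.all false

open MeasureTheory Set Matrix
open scoped ENNReal

namespace Vale.Agent.P209.H519

/-! ## 1. Change of variables -/

theorem lint_scale {d : ℕ} (D : Fin d → ℝ) (hD : ∀ a, 0 < D a) (F : (Fin d → ℝ) → ℝ≥0∞)
    (hF : Measurable F) :
    ∫⁻ v, F v = ENNReal.ofReal (∏ a, D a) * ∫⁻ w : Fin d → ℝ, F (fun a => D a * w a) := by
  have hdet : det (diagonal D) = ∏ a, D a := det_diagonal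
  have hpos : 0 < ∏ a, D a := Finset.prod_pos fun a _ => hD a
  have h := Real.smul_map_diagonal_volume_pi (D := D) (by rw [hdet]; exact hpos.ne')
  have hL : Measurable (toLin' (diagonal D) : (Fin d → ℝ) → (Fin d → ℝ)) :=
    (LinearMap.continuous_of_finiteDimensional _).measurable
  calc ∫⁻ v, F v = ∫⁻ v, F v ∂(ENNReal.ofReal |det (diagonal D)| •
        Measure.map (toLin' (diagonal D)) volume) := by rw [h]
    _ = ENNReal.ofReal (∏ a, D a) * ∫⁻ w : Fin d → ℝ, F (toLin' (diagonal D) w) := by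
        rw [lintegral_smul_measure, lintegral_map hF hL, hdet, abs_of_pos hpos, smul_eq_mul]
    _ = _ := by
        congr 1
        refine lintegral_congr fun w => ?_
        congr 1
        funext a
        simp [mulVec_diagonal]

theorem slice {m : ℕ} (i : Fin (m + 1)) (F : (Fin (m + 1) → ℝ) → ℝ≥0∞) (hF : Measurable F) :
    ∫⁻ u, F u = ∫⁻ x : ℝ, ∫⁻ v : Fin m → ℝ, F (i.insertNth x v) := by
  have h := (volume_preserving_piFinSuccAbove (fun _ : Fin (m + 1) => ℝ) i).symm
  rw [← h.lintegral_comp hF]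
  have hm : Measurable fun p : ℝ × (Fin m → ℝ) =>
      F ((MeasurableEquiv.piFinSuccAbove (fun _ : Fin (m + 1) => ℝ) i).symm p) :=
    hF.comp (MeasurableEquiv.measurable _)
  rw [Measure.volume_eq_prod, lintegral_prod _ hm.aemeasurable]
  rfl

/-! ## 2. Slices -/

/-- the part of the integral carried by the slice at height `x` -/
noncomputable def Phi {m : ℕ} (i : Fin (m + 1)) (G : (Fin (m + 1) → ℝ) → ℝ≥0∞) (x : ℝ)
    (D : Fin m → ℝ) : ℝ≥0∞ :=
  ∫⁻ w : Fin m → ℝ, G (i.insertNth x fun b => D b * w b) * ENNReal.ofReal (1 - ∑ b, w b)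

theorem meas_ins {m : ℕ} (i : Fin (m + 1)) (x : ℝ) :
    Measurable fun v : Fin m → ℝ => (i.insertNth x v : Fin (m + 1) → ℝ) := by
  have h := (MeasurableEquiv.piFinSuccAbove (fun _ : Fin (m + 1) => ℝ) i).symm.measurable
  exact h.comp (measurable_const.prodMk measurable_id)

theorem slice_scale {m : ℕ} (i : Fin (m + 1)) (c : Fin m → ℝ) (hc : ∀ b, 0 < c b) {R : ℝ}
    (G : (Fin (m + 1) → ℝ) → ℝ≥0∞) (hG : Measurable G) (hsup : ∀ u, G u ≠ 0 → ∀ a, 0 < u a) :
    ∫⁻ u, G u * ENNReal.ofReal (R - (u i + ∑ b, c b * u (i.succAbove b))) =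
      ∫⁻ x in Ioo 0 R, ENNReal.ofReal ((R - x) ^ (m + 1) / ∏ b, c b) *
        Phi i G x (fun b => (R - x) / c b) := by
  have hm1 : Measurable fun u : Fin (m + 1) → ℝ =>
      G u * ENNReal.ofReal (R - (u i + ∑ b, c b * u (i.succAbove b))) := by
    refine hG.mul (Measurable.ennreal_ofReal ?_)
    fun_prop
  rw [slice i _ hm1, ← lintegral_indicator measurableSet_Ioo]
  refine lintegral_congr fun x => ?_
  by_cases hx : x ∈ Ioo 0 R
  · rw [indicator_of_mem hx]
    have hs : 0 < R - x := by linarith [hx.2]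
    have hD : ∀ b, 0 < (R - x) / c b := fun b => div_pos hs (hc b)
    have hm2 : Measurable fun v : Fin m → ℝ => G (i.insertNth x v) *
        ENNReal.ofReal (R - ((i.insertNth x v : Fin (m + 1) → ℝ) i +
          ∑ b, c b * (i.insertNth x v : Fin (m + 1) → ℝ) (i.succAbove b))) :=
      hm1.comp (meas_ins i x)
    rw [lint_scale _ hD _ hm2]
    have hprod : ∏ b, (R - x) / c b = (R - x) ^ m / ∏ b, c b := by
      rw [Finset.prod_div_distrib, Finset.prod_const, Finset.card_univ, Fintype.card_fin]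
    have h1 : ∀ w : Fin m → ℝ, G (i.insertNth x fun b => (R - x) / c b * w b) *
        ENNReal.ofReal (R - ((i.insertNth x (fun b => (R - x) / c b * w b) :
          Fin (m + 1) → ℝ) i + ∑ b, c b * (i.insertNth x (fun b => (R - x) / c b * w b) :
            Fin (m + 1) → ℝ) (i.succAbove b))) =
        ENNReal.ofReal (R - x) * (G (i.insertNth x fun b => (R - x) / c b * w b) *
          ENNReal.ofReal (1 - ∑ b, w b)) := by
      intro w
      have h2 : R - ((i.insertNth x (fun b => (R - x) / c b * w b) :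
          Fin (m + 1) → ℝ) i + ∑ b, c b * (i.insertNth x (fun b => (R - x) / c b * w b) :
            Fin (m + 1) → ℝ) (i.succAbove b)) = (R - x) * (1 - ∑ b, w b) := by
        rw [Fin.insertNth_apply_same]
        have h3 : ∀ b, c b * (i.insertNth x (fun b => (R - x) / c b * w b) :
            Fin (m + 1) → ℝ) (i.succAbove b) = (R - x) * w b := by
          intro b
          rw [Fin.insertNth_apply_succAbove]
          have := (hc b).ne'
          field_simp
        rw [Finset.sum_congr rfl fun b _ => h3 b, ← Finset.mul_sum]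
        ring
      rw [h2, ENNReal.ofReal_mul hs.le]
      ring
    simp_rw [h1]
    have hm3 : Measurable fun w : Fin m → ℝ => G (i.insertNth x fun b => (R - x) / c b * w b) *
        ENNReal.ofReal (1 - ∑ b, w b) := by
      refine Measurable.mul ?_ (Measurable.ennreal_ofReal (by fun_prop))
      refine (hG.comp (meas_ins i x)).comp ?_
      fun_prop
    rw [lintegral_const_mul _ hm3, hprod, ← mul_assoc, ← ENNReal.ofReal_mul (by
      have : 0 < ∏ b, c b := Finset.prod_pos fun b _ => hc b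
      positivity)]
    unfold Phi
    congr 2
    ring
  · rw [indicator_of_notMem hx]
    refine (lintegral_congr fun v => ?_).trans lintegral_zero
    by_cases h0 : G (i.insertNth x v) = 0
    · rw [h0, zero_mul]
    · have h1 := hsup _ h0
      have h2 : 0 < x := by simpa using h1 i
      have h3 : ∀ b, 0 < v b := fun b => by simpa using h1 (i.succAbove b)
      have h4 : R ≤ x := by
        by_contra h5
        exact hx ⟨h2, not_le.1 h5⟩
      have h5 : 0 ≤ ∑ b, c b * v b := Finset.sum_nonneg fun b _ => mul_nonneg (hc b).le (h3 b).le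
      rw [ENNReal.ofReal_of_nonpos, mul_zero]
      simp only [Fin.insertNth_apply_same, Fin.insertNth_apply_succAbove]
      linarith

/-! ## 3. The coupling -/

theorem binom_ineq {p c y : ℝ} (hp : 0 ≤ p) (hc : 0 ≤ c) (hy0 : 0 ≤ y) (hy1 : y ≤ 1) (n : ℕ) :
    p ^ n + y ^ n * ((p + c) ^ n - p ^ n) ≤ (p + c * y) ^ n := by
  induction n with
  | zero => simp
  | succ n ih =>
    have hA : 0 ≤ (p + c) ^ n - p ^ n := by
      have : p ^ n ≤ (p + c) ^ n := pow_le_pow_left₀ hp (by linarith) n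
      linarith
    have hy2 : y ^ (n + 1) ≤ y ^ n := pow_le_pow_of_le_one hy0 hy1 (Nat.le_succ n)
    have hy3 : y ^ (n + 1) ≤ y := by
      calc y ^ (n + 1) ≤ y ^ 1 := pow_le_pow_of_le_one hy0 hy1 (by omega)
        _ = y := pow_one y
    have hpy : 0 ≤ p + c * y := by positivity
    have h1 : (p + c * y) * (p ^ n + y ^ n * ((p + c) ^ n - p ^ n)) ≤ (p + c * y) ^ (n + 1) := by
      rw [pow_succ']
      exact mul_le_mul_of_nonneg_left ih hpy
    have hpn : 0 ≤ p ^ n := pow_nonneg hp n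
    have h2 : y ^ (n + 1) * (p * ((p + c) ^ n - p ^ n)) ≤ y ^ n * (p * ((p + c) ^ n - p ^ n)) :=
      mul_le_mul_of_nonneg_right hy2 (mul_nonneg hp hA)
    have h3 : y ^ (n + 1) * (c * p ^ n) ≤ y * (c * p ^ n) :=
      mul_le_mul_of_nonneg_right hy3 (mul_nonneg hc hpn)
    refine le_trans ?_ h1
    have e1 : p ^ (n + 1) + y ^ (n + 1) * ((p + c) ^ (n + 1) - p ^ (n + 1)) =
        p ^ (n + 1) + y ^ (n + 1) * (p * ((p + c) ^ n - p ^ n)) +
          c * y * (y ^ n * ((p + c) ^ n - p ^ n)) + y ^ (n + 1) * (c * p ^ n) := by ring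
    have e2 : (p + c * y) * (p ^ n + y ^ n * ((p + c) ^ n - p ^ n)) =
        p ^ (n + 1) + y ^ n * (p * ((p + c) ^ n - p ^ n)) +
          c * y * (y ^ n * ((p + c) ^ n - p ^ n)) + y * (c * p ^ n) := by ring
    rw [e1, e2]
    linarith

/-- the coupling: the slice `a` of the ball `r` goes to the slice `sq a` of the model -/
noncomputable def sq (n : ℕ) (r0 R r a : ℝ) : ℝ :=
  (r0 ^ n + (a / r) ^ n * (R ^ n - r0 ^ n)) ^ ((n : ℝ)⁻¹)

section coupling

variable {n : ℕ} {r0 R r a : ℝ}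

theorem q_nonneg (hr0 : 0 ≤ r0) (hR : r0 < R) (hr : 0 < r) (ha : 0 ≤ a) :
    0 ≤ r0 ^ n + (a / r) ^ n * (R ^ n - r0 ^ n) := by
  have h1 : r0 ^ n ≤ R ^ n := pow_le_pow_left₀ hr0 hR.le n
  have h2 : 0 ≤ (a / r) ^ n := pow_nonneg (div_nonneg ha hr.le) n
  have h3 : 0 ≤ r0 ^ n := pow_nonneg hr0 n
  nlinarith [mul_nonneg h2 (sub_nonneg.2 h1)]

theorem q_pos (hn : n ≠ 0) (hr0 : 0 ≤ r0) (hR : r0 < R) (hr : 0 < r) (ha : 0 < a) :
    0 < r0 ^ n + (a / r) ^ n * (R ^ n - r0 ^ n) := by
  have h1 : r0 ^ n < R ^ n := pow_lt_pow_left₀ hR hr0 hn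
  have h2 : 0 < (a / r) ^ n := pow_pos (div_pos ha hr) n
  have h3 : 0 ≤ r0 ^ n := pow_nonneg hr0 n
  nlinarith [mul_pos h2 (sub_pos.2 h1)]

theorem sq_nonneg' (hr0 : 0 ≤ r0) (hR : r0 < R) (hr : 0 < r) (ha : 0 ≤ a) :
    0 ≤ sq n r0 R r a := Real.rpow_nonneg (q_nonneg hr0 hR hr ha) _

theorem sq_pos (hn : n ≠ 0) (hr0 : 0 ≤ r0) (hR : r0 < R) (hr : 0 < r) (ha : 0 < a) :
    0 < sq n r0 R r a := Real.rpow_pos_of_pos (q_pos hn hr0 hR hr ha) _

theorem sq_pow (hn : n ≠ 0) (hr0 : 0 ≤ r0) (hR : r0 < R) (hr : 0 < r) (ha : 0 ≤ a) :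
    sq n r0 R r a ^ n = r0 ^ n + (a / r) ^ n * (R ^ n - r0 ^ n) :=
  Real.rpow_inv_natCast_pow (q_nonneg hr0 hR hr ha) hn

theorem sq_lt (hn : n ≠ 0) (hr0 : 0 ≤ r0) (hR : r0 < R) (hr : 0 < r) (ha : 0 ≤ a) (har : a < r) :
    sq n r0 R r a < R := by
  refine lt_of_pow_lt_pow_left₀ n (hr0.trans hR.le) ?_
  rw [sq_pow hn hr0 hR hr ha]
  have h1 : r0 ^ n < R ^ n := pow_lt_pow_left₀ hR hr0 hn
  have h2 : (a / r) ^ n < 1 := pow_lt_one₀ (div_nonneg ha hr.le) ((div_lt_one hr).2 har) hn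
  nlinarith

theorem lt_sq (hn : n ≠ 0) (hr0 : 0 ≤ r0) (hR : r0 < R) (hr : 0 < r) (ha : 0 < a) :
    r0 < sq n r0 R r a := by
  refine lt_of_pow_lt_pow_left₀ n (sq_nonneg' hr0 hR hr ha.le) ?_
  rw [sq_pow hn hr0 hR hr ha.le]
  have h1 : r0 ^ n < R ^ n := pow_lt_pow_left₀ hR hr0 hn
  have h2 : 0 < (a / r) ^ n := pow_pos (div_pos ha hr) n
  nlinarith [mul_pos h2 (sub_pos.2 h1)]

theorem sq_le (hn : n ≠ 0) (hr0 : 0 ≤ r0) (hR : r0 < R) (hr : 0 < r) (h1 : r ≤ R - r0)
    (ha : 0 ≤ a) (har : a ≤ r) : sq n r0 R r a ≤ R - r + a := by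
  have hy0 : 0 ≤ a / r := div_nonneg ha hr.le
  have hy1 : a / r ≤ 1 := (div_le_one hr).2 har
  refine le_of_pow_le_pow_left₀ hn (by linarith) ?_
  rw [sq_pow hn hr0 hR hr ha]
  have h2 := binom_ineq hr0 (by linarith : (0 : ℝ) ≤ R - r0) hy0 hy1 n
  rw [add_sub_cancel] at h2
  refine h2.trans (pow_le_pow_left₀ (by nlinarith) ?_ n)
  have h3 : (R - r0) * (1 - a / r) ≥ r * (1 - a / r) :=
    mul_le_mul_of_nonneg_right h1 (by linarith)
  have h4 : r * (a / r) = a := by field_simp
  nlinarith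

theorem le_sq (hn : n ≠ 0) (hr0 : 0 ≤ r0) (hR : r0 < R) (hr : 0 < r) {c : ℝ} (hc : 0 ≤ c)
    (h2 : c * r ≤ R) (ha : 0 ≤ a) (har : a ≤ r) : c * a ≤ sq n r0 R r a := by
  refine le_of_pow_le_pow_left₀ hn (sq_nonneg' hr0 hR hr ha) ?_
  rw [sq_pow hn hr0 hR hr ha]
  have h3 : c * a = (a / r) * (c * r) := by field_simp
  have hy0 : 0 ≤ a / r := div_nonneg ha hr.le
  have hy1 : a / r ≤ 1 := (div_le_one hr).2 har
  have h4 : (c * r) ^ n ≤ R ^ n := pow_le_pow_left₀ (by positivity) h2 n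
  have h5 : (a / r) ^ n ≤ 1 := pow_le_one₀ hy0 hy1
  have h6 : 0 ≤ (a / r) ^ n := pow_nonneg hy0 n
  have h7 : 0 ≤ r0 ^ n := pow_nonneg hr0 n
  rw [h3, mul_pow]
  nlinarith [mul_le_mul_of_nonneg_left h4 h6, mul_nonneg h7 (sub_nonneg.2 h5)]

theorem hasDerivAt_sq (hn : n ≠ 0) (hr0 : 0 ≤ r0) (hR : r0 < R) (hr : 0 < r) (ha : 0 < a) :
    HasDerivAt (sq n r0 R r)
      ((R ^ n - r0 ^ n) / r ^ n * a ^ (n - 1) / sq n r0 R r a ^ (n - 1)) a := by
  have hq := q_pos hn hr0 hR hr ha
  have h1 : HasDerivAt (fun a : ℝ => r0 ^ n + (a / r) ^ n * (R ^ n - r0 ^ n))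
      ((n : ℝ) * (a / r) ^ (n - 1) * (1 / r) * (R ^ n - r0 ^ n)) a := by
    have h2 : HasDerivAt (fun a : ℝ => a / r) (1 / r) a := (hasDerivAt_id a).div_const r
    exact ((h2.pow n).mul_const _).const_add _
  have h3 := h1.rpow_const (p := (n : ℝ)⁻¹) (Or.inl hq.ne')
  refine h3.congr_deriv ?_
  have hs := sq_pos hn hr0 hR hr ha
  have hn0 : (n : ℝ) ≠ 0 := by exact_mod_cast hn
  have h4 : (r0 ^ n + (a / r) ^ n * (R ^ n - r0 ^ n)) ^ ((n : ℝ)⁻¹ - 1) =
      1 / sq n r0 R r a ^ (n - 1) := by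
    have key : ∀ q : ℝ, 0 < q → q ^ ((n : ℝ)⁻¹ - 1) * (q ^ ((n : ℝ)⁻¹)) ^ (n - 1) = 1 := by
      intro q hq
      rw [← Real.rpow_natCast (q ^ ((n : ℝ)⁻¹)) (n - 1), ← Real.rpow_mul hq.le,
        ← Real.rpow_add hq]
      have : (n : ℝ)⁻¹ - 1 + (n : ℝ)⁻¹ * ((n - 1 : ℕ) : ℝ) = 0 := by
        rw [Nat.cast_sub (Nat.one_le_iff_ne_zero.2 hn)]
        field_simp
        push_cast
        ring
      rw [this, Real.rpow_zero]
    rw [eq_div_iff (pow_pos hs _).ne']
    exact key _ hq
  rw [h4]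
  have h5 : (a / r) ^ (n - 1) * (1 / r) = a ^ (n - 1) / r ^ n := by
    obtain ⟨k, rfl⟩ := Nat.exists_eq_succ_of_ne_zero hn
    simp only [Nat.succ_eq_add_one, Nat.add_sub_cancel]
    rw [div_pow, pow_succ]
    field_simp
  calc _ = (n : ℝ) * ((a / r) ^ (n - 1) * (1 / r)) * (R ^ n - r0 ^ n) * (n : ℝ)⁻¹ *
        (1 / sq n r0 R r a ^ (n - 1)) := by ring
    _ = _ := by
        rw [h5]
        field_simp

theorem sq_image (hn : n ≠ 0) (hr0 : 0 ≤ r0) (hR : r0 < R) (hr : 0 < r) :
    (fun y => R - sq n r0 R r (r - y)) '' Ioo 0 r = Ioo 0 (R - r0) := by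
  ext x
  simp only [mem_image, mem_Ioo]
  constructor
  · rintro ⟨y, ⟨h1, h2⟩, rfl⟩
    have h3 := sq_lt hn hr0 hR hr (by linarith : 0 ≤ r - y) (by linarith)
    have h4 := lt_sq hn hr0 hR hr (by linarith : 0 < r - y)
    exact ⟨by linarith, by linarith⟩
  · rintro ⟨h1, h2⟩
    have hs0 : r0 < R - x := by linarith
    have hpos : 0 < R ^ n - r0 ^ n := sub_pos.2 (pow_lt_pow_left₀ hR hr0 hn)
    have hq0 : 0 < ((R - x) ^ n - r0 ^ n) / (R ^ n - r0 ^ n) :=
      div_pos (sub_pos.2 (pow_lt_pow_left₀ hs0 hr0 hn)) hpos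
    have hq1 : ((R - x) ^ n - r0 ^ n) / (R ^ n - r0 ^ n) < 1 := by
      rw [div_lt_one hpos]
      have : (R - x) ^ n < R ^ n := pow_lt_pow_left₀ (by linarith) (by linarith) hn
      linarith
    set t := (((R - x) ^ n - r0 ^ n) / (R ^ n - r0 ^ n)) ^ ((n : ℝ)⁻¹) with ht
    have ht0 : 0 < t := Real.rpow_pos_of_pos hq0 _
    have ht1 : t < 1 := Real.rpow_lt_one hq0.le hq1 (by positivity)
    have htn : t ^ n = ((R - x) ^ n - r0 ^ n) / (R ^ n - r0 ^ n) :=
      Real.rpow_inv_natCast_pow hq0.le hn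
    refine ⟨r - r * t, ⟨by nlinarith, by nlinarith⟩, ?_⟩
    have h3 : r - (r - r * t) = r * t := by ring
    rw [h3]
    have h4 : sq n r0 R r (r * t) = R - x := by
      have h5 : sq n r0 R r (r * t) ^ n = (R - x) ^ n := by
        rw [sq_pow hn hr0 hR hr (by positivity)]
        have h6 : r * t / r = t := by field_simp
        rw [h6, htn]
        field_simp
        ring
      exact (pow_left_inj₀ (sq_nonneg' hr0 hR hr (by positivity)) (by linarith) hn).1 h5
    rw [h4]
    ring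

theorem sq_inj (hn : n ≠ 0) (hr0 : 0 ≤ r0) (hR : r0 < R) (hr : 0 < r) :
    InjOn (fun y => R - sq n r0 R r (r - y)) (Ioo 0 r) := by
  intro y hy z hz h
  have h1 : sq n r0 R r (r - y) = sq n r0 R r (r - z) := by
    have h' : R - sq n r0 R r (r - y) = R - sq n r0 R r (r - z) := h
    linarith
  have h2 : sq n r0 R r (r - y) ^ n = sq n r0 R r (r - z) ^ n := by rw [h1]
  rw [sq_pow hn hr0 hR hr (by linarith [hy.2]), sq_pow hn hr0 hR hr (by linarith [hz.2])] at h2
  have hpos : 0 < R ^ n - r0 ^ n := sub_pos.2 (pow_lt_pow_left₀ hR hr0 hn)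
  have h3 : ((r - y) / r) ^ n = ((r - z) / r) ^ n := by
    have : ((r - y) / r) ^ n * (R ^ n - r0 ^ n) = ((r - z) / r) ^ n * (R ^ n - r0 ^ n) := by
      linarith
    exact mul_right_cancel₀ hpos.ne' this
  have h4 : (r - y) / r = (r - z) / r := by
    refine (pow_left_inj₀ (div_nonneg (by linarith [hy.2]) hr.le)
      (div_nonneg (by linarith [hz.2]) hr.le) hn).1 h3
  have h5 : r - y = r - z := by
    field_simp at h4
    linarith
  linarith

end coupling

/-! ## 4. One ball against the model -/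

section ball

variable {m : ℕ} (i : Fin (m + 1)) {c : Fin m → ℝ} {R r0 r : ℝ}

/-- the integral over the model, written on the slices of the ball `r` -/
theorem model_eq (hc : ∀ b, 0 < c b) (hr0 : 0 ≤ r0) (hR : r0 < R) (hr : 0 < r)
    (G : (Fin (m + 1) → ℝ) → ℝ≥0∞) (hG : Measurable G)
    (hsup : ∀ u, G u ≠ 0 → (∀ a, 0 < u a) ∧ u i < R - r0) :
    ∫⁻ u, G u * ENNReal.ofReal (R - (u i + ∑ b, c b * u (i.succAbove b))) =
      ENNReal.ofReal ((R ^ (m + 2) - r0 ^ (m + 2)) / r ^ (m + 2) / ∏ b, c b) *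
        ∫⁻ y in Ioo 0 r, ENNReal.ofReal ((r - y) ^ (m + 1)) *
          Phi i G (R - sq (m + 2) r0 R r (r - y)) (fun b => sq (m + 2) r0 R r (r - y) / c b) := by
  have hn : m + 2 ≠ 0 := by omega
  have hP : 0 < ∏ b, c b := Finset.prod_pos fun b _ => hc b
  have hpos : 0 < R ^ (m + 2) - r0 ^ (m + 2) := sub_pos.2 (pow_lt_pow_left₀ hR hr0 hn)
  rw [slice_scale i c hc G hG (fun u hu => (hsup u hu).1)]
  -- restrict to `x < R - r0`
  have h1 : ∫⁻ x in Ioo 0 R, ENNReal.ofReal ((R - x) ^ (m + 1) / ∏ b, c b) *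
        Phi i G x (fun b => (R - x) / c b) =
      ∫⁻ x in Ioo 0 (R - r0), ENNReal.ofReal ((R - x) ^ (m + 1) / ∏ b, c b) *
        Phi i G x (fun b => (R - x) / c b) := by
    rw [← lintegral_indicator measurableSet_Ioo, ← lintegral_indicator measurableSet_Ioo]
    refine lintegral_congr fun x => ?_
    by_cases hx : x ∈ Ioo 0 (R - r0)
    · have hx2 : x ∈ Ioo 0 R := ⟨hx.1, by linarith [hx.2]⟩
      rw [indicator_of_mem hx, indicator_of_mem hx2]
    · rw [indicator_of_notMem hx]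
      by_cases hx' : x ∈ Ioo 0 R
      · rw [indicator_of_mem hx']
        have h2 : R - r0 ≤ x := by
          by_contra h3
          exact hx ⟨hx'.1, not_le.1 h3⟩
        have h3 : Phi i G x (fun b => (R - x) / c b) = 0 := by
          refine (lintegral_congr fun w => ?_).trans lintegral_zero
          by_cases h0 : G (i.insertNth x fun b => (R - x) / c b * w b) = 0
          · rw [h0, zero_mul]
          · have := (hsup _ h0).2
            rw [Fin.insertNth_apply_same] at this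
            exact absurd this (not_lt.2 h2)
        rw [h3, mul_zero]
      · rw [indicator_of_notMem hx']
  rw [h1, ← sq_image hn hr0 hR hr]
  have hder : ∀ y ∈ Ioo 0 r, HasDerivWithinAt (fun y => R - sq (m + 2) r0 R r (r - y))
      ((R ^ (m + 2) - r0 ^ (m + 2)) / r ^ (m + 2) * (r - y) ^ (m + 1) /
        sq (m + 2) r0 R r (r - y) ^ (m + 1)) (Ioo 0 r) y := by
    intro y hy
    have h2 := hasDerivAt_sq hn hr0 hR hr (by linarith [hy.2] : 0 < r - y)
    have h3 : HasDerivAt (fun y : ℝ => r - y) (-1) y := by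
      simpa using (hasDerivAt_id y).const_sub r
    have h4 := (h2.comp y h3).const_sub R
    refine HasDerivAt.hasDerivWithinAt (h4.congr_deriv ?_)
    have : m + 2 - 1 = m + 1 := by omega
    rw [this]
    ring
  rw [lintegral_image_eq_lintegral_abs_deriv_mul measurableSet_Ioo hder (sq_inj hn hr0 hR hr)]
  have hK : 0 ≤ (R ^ (m + 2) - r0 ^ (m + 2)) / r ^ (m + 2) / ∏ b, c b := by positivity
  rw [← lintegral_const_mul' _ _ ENNReal.ofReal_ne_top]
  refine setLIntegral_congr_fun measurableSet_Ioo fun y hy => ?_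
  have hry : 0 < r - y := by linarith [hy.2]
  have hs := sq_pos hn hr0 hR hr hry
  simp only [sub_sub_cancel]
  rw [abs_of_nonneg (by positivity), ← mul_assoc, ← mul_assoc, ← ENNReal.ofReal_mul (by positivity),
    ← ENNReal.ofReal_mul hK]
  congr 2
  field_simp

theorem ball_eq (hr : 0 < r) (G : (Fin (m + 1) → ℝ) → ℝ≥0∞) (hG : Measurable G)
    (hsup : ∀ u, G u ≠ 0 → (∀ a, 0 < u a)) :
    ∫⁻ u, G u * ENNReal.ofReal (r - ∑ a, u a) =
      ∫⁻ y in Ioo 0 r, ENNReal.ofReal ((r - y) ^ (m + 1)) * Phi i G y (fun _ => r - y) := by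
  have h := slice_scale i (fun _ => 1) (fun _ => one_pos) (R := r) G hG hsup
  simp only [one_mul, Finset.prod_const_one, div_one] at h
  rw [← h]
  refine lintegral_congr fun u => ?_
  rw [Fin.sum_univ_succAbove _ i]

/-- the open model -/
def Om (i : Fin (m + 1)) (c : Fin m → ℝ) (R r0 : ℝ) : Set (Fin (m + 1) → ℝ) :=
  {u | (∀ a, 0 < u a) ∧ u i + ∑ b, c b * u (i.succAbove b) < R ∧ u i < R - r0}

theorem Om_meas : MeasurableSet (Om i c R r0) := by
  have h : Om i c R r0 = (⋂ a, {u | 0 < u a}) ∩ ({u | u i + ∑ b, c b * u (i.succAbove b) < R} ∩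
      {u | u i < R - r0}) := by
    ext u
    simp [Om]
  rw [h]
  refine (MeasurableSet.iInter fun a => ?_).inter (MeasurableSet.inter ?_ ?_)
  · exact measurableSet_lt measurable_const (measurable_pi_apply a)
  · exact measurableSet_lt (by fun_prop) measurable_const
  · exact measurableSet_lt (measurable_pi_apply i) measurable_const

/-- the points of the two slices which are coupled -/
theorem couple (hc : ∀ b, 0 < c b) (hr0 : 0 ≤ r0) (hR : r0 < R) (hr : 0 < r) (h1 : r ≤ R - r0)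
    (h2 : ∀ b, c b * r ≤ R) {y : ℝ} (hy : y ∈ Ioo 0 r) (w : Fin m → ℝ) (hw : ∑ b, w b < 1) :
    ((i.insertNth (R - sq (m + 2) r0 R r (r - y))
        (fun b => sq (m + 2) r0 R r (r - y) / c b * w b) : Fin (m + 1) → ℝ) ∈ Om i c R r0 ↔
      ∀ b, 0 < w b) ∧
    ((i.insertNth y (fun b => (r - y) * w b) : Fin (m + 1) → ℝ) ∈ Om i c R r0 ↔ ∀ b, 0 < w b) ∧
    ((∀ b, 0 < w b) → (i.insertNth y (fun b => (r - y) * w b) : Fin (m + 1) → ℝ) ≤
      i.insertNth (R - sq (m + 2) r0 R r (r - y))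
        (fun b => sq (m + 2) r0 R r (r - y) / c b * w b)) := by
  have hn : m + 2 ≠ 0 := by omega
  have hry : 0 < r - y := by linarith [hy.2]
  set s := sq (m + 2) r0 R r (r - y) with hs
  have s0 : 0 < s := sq_pos hn hr0 hR hr hry
  have s1 : s < R := sq_lt hn hr0 hR hr hry.le (by linarith [hy.1])
  have s2 : r0 < s := lt_sq hn hr0 hR hr hry
  have s3 : s ≤ R - r + (r - y) := sq_le hn hr0 hR hr h1 hry.le (by linarith [hy.1])
  have s4 : ∀ b, c b * (r - y) ≤ s := fun b =>
    le_sq hn hr0 hR hr (hc b).le (h2 b) hry.le (by linarith [hy.1])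
  have hle : (∀ b, 0 < w b) → (i.insertNth y (fun b => (r - y) * w b) : Fin (m + 1) → ℝ) ≤
      i.insertNth (R - s) (fun b => s / c b * w b) := by
    intro hw0
    rw [Fin.insertNth_le_iff]
    refine ⟨?_, fun b => ?_⟩
    · rw [Fin.insertNth_apply_same]
      linarith
    · show (r - y) * w b ≤ (i.insertNth (R - s) (fun b => s / c b * w b) : Fin (m + 1) → ℝ)
        (i.succAbove b)
      rw [Fin.insertNth_apply_succAbove]
      refine mul_le_mul_of_nonneg_right ?_ (hw0 b).le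
      rw [le_div_iff₀ (hc b)]
      linarith [s4 b, mul_comm (c b) (r - y)]
  have hP : (∀ b, 0 < w b) →
      (i.insertNth (R - s) (fun b => s / c b * w b) : Fin (m + 1) → ℝ) ∈ Om i c R r0 := by
    intro hw0
    refine ⟨?_, ?_, ?_⟩
    · rw [Fin.forall_iff_succAbove i]
      refine ⟨by rw [Fin.insertNth_apply_same]; linarith, fun b => ?_⟩
      rw [Fin.insertNth_apply_succAbove]
      exact mul_pos (div_pos s0 (hc b)) (hw0 b)
    · simp only [Fin.insertNth_apply_same, Fin.insertNth_apply_succAbove]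
      have : ∀ b, c b * (s / c b * w b) = s * w b := by
        intro b
        have := (hc b).ne'
        field_simp
      rw [Finset.sum_congr rfl fun b _ => this b, ← Finset.mul_sum]
      nlinarith
    · rw [Fin.insertNth_apply_same]
      linarith
  refine ⟨⟨fun h b => ?_, hP⟩, ⟨fun h b => ?_, fun hw0 => ?_⟩, hle⟩
  · have h3 := h.1 (i.succAbove b)
    rw [Fin.insertNth_apply_succAbove] at h3
    exact (mul_pos_iff_of_pos_left (div_pos s0 (hc b))).1 h3
  · have h3 := h.1 (i.succAbove b)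
    rw [Fin.insertNth_apply_succAbove] at h3
    exact (mul_pos_iff_of_pos_left hry).1 h3
  · have h3 := hP hw0
    have h4 := hle hw0
    refine ⟨?_, ?_, ?_⟩
    · rw [Fin.forall_iff_succAbove i]
      refine ⟨by rw [Fin.insertNth_apply_same]; exact hy.1, fun b => ?_⟩
      rw [Fin.insertNth_apply_succAbove]
      exact mul_pos hry (hw0 b)
    · refine lt_of_le_of_lt ?_ h3.2.1
      refine add_le_add (h4 i) (Finset.sum_le_sum fun b _ => ?_)
      exact mul_le_mul_of_nonneg_left (h4 _) (hc b).le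
    · exact lt_of_le_of_lt (h4 i) h3.2.2

variable (hc : ∀ b, 0 < c b) (hr0 : 0 ≤ r0) (hR : r0 < R) (hr : 0 < r) (h1 : r ≤ R - r0)
  (h2 : ∀ b, c b * r ≤ R)

include hc hr0 hR hr h1 h2

theorem ball_le (h : (Fin (m + 1) → ℝ) → ℝ) (hm : Measurable ((Om i c R r0).indicator h))
    (hanti : ∀ u ∈ Om i c R r0, ∀ v ∈ Om i c R r0, u ≤ v → h v ≤ h u) :
    ∫⁻ u in Om i c R r0, ENNReal.ofReal (h u) *
        ENNReal.ofReal (R - (u i + ∑ b, c b * u (i.succAbove b))) ≤
      ENNReal.ofReal ((R ^ (m + 2) - r0 ^ (m + 2)) / r ^ (m + 2) / ∏ b, c b) *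
        ∫⁻ u in Om i c R r0, ENNReal.ofReal (h u) * ENNReal.ofReal (r - ∑ a, u a) := by
  set G : (Fin (m + 1) → ℝ) → ℝ≥0∞ := fun u => ENNReal.ofReal ((Om i c R r0).indicator h u) with hG
  have hGm : Measurable G := hm.ennreal_ofReal
  have hGsup : ∀ u, G u ≠ 0 → u ∈ Om i c R r0 := by
    intro u hu
    by_contra h0
    exact hu (by rw [hG]; simp [indicator_of_notMem h0])
  have hGe : ∀ u ∈ Om i c R r0, G u = ENNReal.ofReal (h u) := fun u hu => by
    rw [hG]; simp only [indicator_of_mem hu]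
  have e1 : ∀ F : (Fin (m + 1) → ℝ) → ℝ≥0∞,
      ∫⁻ u in Om i c R r0, ENNReal.ofReal (h u) * F u = ∫⁻ u, G u * F u := by
    intro F
    rw [← lintegral_indicator (Om_meas i)]
    refine lintegral_congr fun u => ?_
    by_cases hu : u ∈ Om i c R r0
    · rw [indicator_of_mem hu, hGe u hu]
    · rw [indicator_of_notMem hu]
      have : G u = 0 := by
        by_contra h0
        exact hu (hGsup u h0)
      rw [this, zero_mul]
  rw [e1, e1, model_eq i hc hr0 hR hr G hGm (fun u hu => ⟨(hGsup u hu).1, (hGsup u hu).2.2⟩),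
    ball_eq i hr G hGm (fun u hu => (hGsup u hu).1)]
  refine mul_le_mul_right ?_ _
  refine setLIntegral_mono' measurableSet_Ioo fun y hy => ?_
  refine mul_le_mul_right ?_ _
  refine lintegral_mono fun w => ?_
  by_cases hw : ∑ b, w b < 1
  · refine mul_le_mul_left ?_ _
    obtain ⟨c1, c2, c3⟩ := couple i hc hr0 hR hr h1 h2 hy w hw
    by_cases hP : (i.insertNth (R - sq (m + 2) r0 R r (r - y))
        (fun b => sq (m + 2) r0 R r (r - y) / c b * w b) : Fin (m + 1) → ℝ) ∈ Om i c R r0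
    · have hw0 := c1.1 hP
      rw [hGe _ hP, hGe _ (c2.2 hw0)]
      exact ENNReal.ofReal_le_ofReal (hanti _ (c2.2 hw0) _ hP (c3 hw0))
    · have : G (i.insertNth (R - sq (m + 2) r0 R r (r - y))
        (fun b => sq (m + 2) r0 R r (r - y) / c b * w b)) = 0 := by
        by_contra h0
        exact hP (hGsup _ h0)
      rw [this]
      exact bot_le
  · rw [ENNReal.ofReal_of_nonpos (by linarith : 1 - ∑ b, w b ≤ 0), mul_zero, mul_zero]

theorem ball_one :
    ∫⁻ u in Om i c R r0, ENNReal.ofReal (R - (u i + ∑ b, c b * u (i.succAbove b))) =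
      ENNReal.ofReal ((R ^ (m + 2) - r0 ^ (m + 2)) / r ^ (m + 2) / ∏ b, c b) *
        ∫⁻ u in Om i c R r0, ENNReal.ofReal (r - ∑ a, u a) := by
  set G : (Fin (m + 1) → ℝ) → ℝ≥0∞ := (Om i c R r0).indicator (fun _ => 1) with hG
  have hGm : Measurable G := measurable_const.indicator (Om_meas i)
  have hGsup : ∀ u, G u ≠ 0 → u ∈ Om i c R r0 := by
    intro u hu
    by_contra h0
    exact hu (by rw [hG]; simp [indicator_of_notMem h0])
  have hGe : ∀ u ∈ Om i c R r0, G u = 1 := fun u hu => by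
    rw [hG]; simp only [indicator_of_mem hu]
  have e1 : ∀ F : (Fin (m + 1) → ℝ) → ℝ≥0∞,
      ∫⁻ u in Om i c R r0, F u = ∫⁻ u, G u * F u := by
    intro F
    rw [← lintegral_indicator (Om_meas i)]
    refine lintegral_congr fun u => ?_
    by_cases hu : u ∈ Om i c R r0
    · rw [indicator_of_mem hu, hGe u hu, one_mul]
    · rw [indicator_of_notMem hu]
      have : G u = 0 := by
        by_contra h0
        exact hu (hGsup u h0)
      rw [this, zero_mul]
  rw [e1, e1, model_eq i hc hr0 hR hr G hGm (fun u hu => ⟨(hGsup u hu).1, (hGsup u hu).2.2⟩),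
    ball_eq i hr G hGm (fun u hu => (hGsup u hu).1)]
  congr 1
  refine setLIntegral_congr_fun measurableSet_Ioo fun y hy => ?_
  refine congrArg _ ?_
  refine lintegral_congr fun w => ?_
  by_cases hw : ∑ b, w b < 1
  · congr 1
    obtain ⟨c1, c2, c3⟩ := couple i hc hr0 hR hr h1 h2 hy w hw
    by_cases hw0 : ∀ b, 0 < w b
    · rw [hGe _ (c1.2 hw0), hGe _ (c2.2 hw0)]
    · have z1 : G (i.insertNth (R - sq (m + 2) r0 R r (r - y))
        (fun b => sq (m + 2) r0 R r (r - y) / c b * w b)) = 0 := by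
        by_contra h0
        exact hw0 (c1.1 (hGsup _ h0))
      have z2 : G (i.insertNth y (fun b => (r - y) * w b)) = 0 := by
        by_contra h0
        exact hw0 (c2.1 (hGsup _ h0))
      rw [z1, z2]
  · rw [ENNReal.ofReal_of_nonpos (by linarith : 1 - ∑ b, w b ≤ 0), mul_zero, mul_zero]

end ball

/-! ## 5. The model without a single coordinate (uniform scaling) -/

section scaleA

variable {d : ℕ} {c : Fin d → ℝ} {R r : ℝ}

/-- the open model -/
def OmA (c : Fin d → ℝ) (R : ℝ) : Set (Fin d → ℝ) := {u | (∀ a, 0 < u a) ∧ ∑ a, c a * u a < R}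

theorem OmA_meas : MeasurableSet (OmA c R) := by
  have h : OmA c R = (⋂ a, {u | 0 < u a}) ∩ {u | ∑ a, c a * u a < R} := by
    ext u
    simp [OmA]
  rw [h]
  refine (MeasurableSet.iInter fun a => ?_).inter ?_
  · exact measurableSet_lt measurable_const (measurable_pi_apply a)
  · exact measurableSet_lt (by fun_prop) measurable_const

theorem scale_eq (hc : ∀ a, 0 < c a) (hR : 0 < R) (G : (Fin d → ℝ) → ℝ≥0∞) (hG : Measurable G) :
    ∫⁻ u, G u * ENNReal.ofReal (R - ∑ a, c a * u a) =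
      ENNReal.ofReal (R ^ (d + 1) / ∏ a, c a) *
        ∫⁻ w : Fin d → ℝ, G (fun a => R / c a * w a) * ENNReal.ofReal (1 - ∑ a, w a) := by
  have hm1 : Measurable fun u : Fin d → ℝ => G u * ENNReal.ofReal (R - ∑ a, c a * u a) :=
    hG.mul (Measurable.ennreal_ofReal (by fun_prop))
  rw [lint_scale (fun a => R / c a) (fun a => div_pos hR (hc a)) _ hm1]
  have hprod : ∏ a, R / c a = R ^ d / ∏ a, c a := by
    rw [Finset.prod_div_distrib, Finset.prod_const, Finset.card_univ, Fintype.card_fin]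
  have h1 : ∀ w : Fin d → ℝ, G (fun a => R / c a * w a) *
      ENNReal.ofReal (R - ∑ a, c a * (R / c a * w a)) =
      ENNReal.ofReal R * (G (fun a => R / c a * w a) * ENNReal.ofReal (1 - ∑ a, w a)) := by
    intro w
    have h2 : R - ∑ a, c a * (R / c a * w a) = R * (1 - ∑ a, w a) := by
      have h3 : ∀ a, c a * (R / c a * w a) = R * w a := by
        intro a
        have := (hc a).ne'
        field_simp
      rw [Finset.sum_congr rfl fun a _ => h3 a, ← Finset.mul_sum]
      ring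
    rw [h2, ENNReal.ofReal_mul hR.le]
    ring
  simp_rw [h1]
  have hm3 : Measurable fun w : Fin d → ℝ => G (fun a => R / c a * w a) *
      ENNReal.ofReal (1 - ∑ a, w a) := by
    refine Measurable.mul ?_ (Measurable.ennreal_ofReal (by fun_prop))
    refine hG.comp ?_
    fun_prop
  have hP : 0 < ∏ a, c a := Finset.prod_pos fun a _ => hc a
  rw [lintegral_const_mul _ hm3, hprod, ← mul_assoc, ← ENNReal.ofReal_mul (by positivity)]
  congr 2
  ring

theorem coupleA (hc : ∀ a, 0 < c a) (hR : 0 < R) (hr : 0 < r) (h2 : ∀ a, c a * r ≤ R)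
    (w : Fin d → ℝ) (hw : ∑ a, w a < 1) :
    ((fun a => R / c a * w a) ∈ OmA c R ↔ ∀ a, 0 < w a) ∧
    ((fun a => r / 1 * w a) ∈ OmA c R ↔ ∀ a, 0 < w a) ∧
    ((∀ a, 0 < w a) → (fun a => r / 1 * w a) ≤ fun a => R / c a * w a) := by
  have hle : (∀ a, 0 < w a) → (fun a => r / 1 * w a) ≤ fun a => R / c a * w a := by
    intro hw0 a
    show r / 1 * w a ≤ R / c a * w a
    refine mul_le_mul_of_nonneg_right ?_ (hw0 a).le
    rw [div_one, le_div_iff₀ (hc a)]
    linarith [h2 a, mul_comm (c a) r]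
  have hP : (∀ a, 0 < w a) → (fun a => R / c a * w a) ∈ OmA c R := by
    intro hw0
    refine ⟨fun a => mul_pos (div_pos hR (hc a)) (hw0 a), ?_⟩
    have h3 : ∀ a, c a * (R / c a * w a) = R * w a := by
      intro a
      have := (hc a).ne'
      field_simp
    rw [Finset.sum_congr rfl fun a _ => h3 a, ← Finset.mul_sum]
    nlinarith
  refine ⟨⟨fun h a => ?_, hP⟩, ⟨fun h a => ?_, fun hw0 => ?_⟩, hle⟩
  · exact (mul_pos_iff_of_pos_left (div_pos hR (hc a))).1 (h.1 a)
  · exact (mul_pos_iff_of_pos_left (by rw [div_one]; exact hr)).1 (h.1 a)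
  · refine ⟨fun a => mul_pos (by rw [div_one]; exact hr) (hw0 a), ?_⟩
    refine lt_of_le_of_lt (Finset.sum_le_sum fun a _ => ?_) (hP hw0).2
    exact mul_le_mul_of_nonneg_left (hle hw0 a) (hc a).le

variable (hc : ∀ a, 0 < c a) (hR : 0 < R) (hr : 0 < r) (h2 : ∀ a, c a * r ≤ R)

include hc hR hr h2

theorem ball_leA (h : (Fin d → ℝ) → ℝ) (hm : Measurable ((OmA c R).indicator h))
    (hanti : ∀ u ∈ OmA c R, ∀ v ∈ OmA c R, u ≤ v → h v ≤ h u) :
    ∫⁻ u in OmA c R, ENNReal.ofReal (h u) * ENNReal.ofReal (R - ∑ a, c a * u a) ≤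
      ENNReal.ofReal (R ^ (d + 1) / r ^ (d + 1) / ∏ a, c a) *
        ∫⁻ u in OmA c R, ENNReal.ofReal (h u) * ENNReal.ofReal (r - ∑ a, u a) := by
  set G : (Fin d → ℝ) → ℝ≥0∞ := fun u => ENNReal.ofReal ((OmA c R).indicator h u) with hG
  have hGm : Measurable G := hm.ennreal_ofReal
  have hGsup : ∀ u, G u ≠ 0 → u ∈ OmA c R := by
    intro u hu
    by_contra h0
    exact hu (by rw [hG]; simp [indicator_of_notMem h0])
  have hGe : ∀ u ∈ OmA c R, G u = ENNReal.ofReal (h u) := fun u hu => by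
    rw [hG]; simp only [indicator_of_mem hu]
  have e1 : ∀ F : (Fin d → ℝ) → ℝ≥0∞,
      ∫⁻ u in OmA c R, ENNReal.ofReal (h u) * F u = ∫⁻ u, G u * F u := by
    intro F
    rw [← lintegral_indicator OmA_meas]
    refine lintegral_congr fun u => ?_
    by_cases hu : u ∈ OmA c R
    · rw [indicator_of_mem hu, hGe u hu]
    · rw [indicator_of_notMem hu]
      have : G u = 0 := by
        by_contra h0
        exact hu (hGsup u h0)
      rw [this, zero_mul]
  have hb := scale_eq (c := fun _ : Fin d => (1 : ℝ)) (fun _ => one_pos) hr G hGm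
  simp only [one_mul, Finset.prod_const_one, div_one] at hb
  have hP : 0 < ∏ a, c a := Finset.prod_pos fun a _ => hc a
  rw [e1, e1, scale_eq hc hR G hGm, hb, ← mul_assoc, ← ENNReal.ofReal_mul (by positivity)]
  have h3 : R ^ (d + 1) / r ^ (d + 1) / (∏ a, c a) * r ^ (d + 1) = R ^ (d + 1) / ∏ a, c a := by
    field_simp
  rw [h3]
  refine mul_le_mul_right ?_ _
  refine lintegral_mono fun w => ?_
  by_cases hw : ∑ a, w a < 1
  · refine mul_le_mul_left ?_ _
    obtain ⟨c1, c2, c3⟩ := coupleA hc hR hr h2 w hw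
    simp only [div_one] at c2 c3
    by_cases hP : (fun a => R / c a * w a) ∈ OmA c R
    · have hw0 := c1.1 hP
      rw [hGe _ hP, hGe _ (c2.2 hw0)]
      exact ENNReal.ofReal_le_ofReal (hanti _ (c2.2 hw0) _ hP (c3 hw0))
    · have : G (fun a => R / c a * w a) = 0 := by
        by_contra h0
        exact hP (hGsup _ h0)
      rw [this]
      exact bot_le
  · rw [ENNReal.ofReal_of_nonpos (by linarith : 1 - ∑ a, w a ≤ 0), mul_zero, mul_zero]

theorem ball_oneA :
    ∫⁻ u in OmA c R, ENNReal.ofReal (R - ∑ a, c a * u a) =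
      ENNReal.ofReal (R ^ (d + 1) / r ^ (d + 1) / ∏ a, c a) *
        ∫⁻ u in OmA c R, ENNReal.ofReal (r - ∑ a, u a) := by
  set G : (Fin d → ℝ) → ℝ≥0∞ := (OmA c R).indicator (fun _ => 1) with hG
  have hGm : Measurable G := measurable_const.indicator OmA_meas
  have hGsup : ∀ u, G u ≠ 0 → u ∈ OmA c R := by
    intro u hu
    by_contra h0
    exact hu (by rw [hG]; simp [indicator_of_notMem h0])
  have hGe : ∀ u ∈ OmA c R, G u = 1 := fun u hu => by
    rw [hG]; simp only [indicator_of_mem hu]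
  have e1 : ∀ F : (Fin d → ℝ) → ℝ≥0∞,
      ∫⁻ u in OmA c R, F u = ∫⁻ u, G u * F u := by
    intro F
    rw [← lintegral_indicator OmA_meas]
    refine lintegral_congr fun u => ?_
    by_cases hu : u ∈ OmA c R
    · rw [indicator_of_mem hu, hGe u hu, one_mul]
    · rw [indicator_of_notMem hu]
      have : G u = 0 := by
        by_contra h0
        exact hu (hGsup u h0)
      rw [this, zero_mul]
  have hb := scale_eq (c := fun _ : Fin d => (1 : ℝ)) (fun _ => one_pos) hr G hGm
  simp only [one_mul, Finset.prod_const_one, div_one] at hb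
  have hP : 0 < ∏ a, c a := Finset.prod_pos fun a _ => hc a
  rw [e1, e1, scale_eq hc hR G hGm, hb, ← mul_assoc, ← ENNReal.ofReal_mul (by positivity)]
  have h3 : R ^ (d + 1) / r ^ (d + 1) / (∏ a, c a) * r ^ (d + 1) = R ^ (d + 1) / ∏ a, c a := by
    field_simp
  rw [h3]
  congr 1
  refine lintegral_congr fun w => ?_
  by_cases hw : ∑ a, w a < 1
  · congr 1
    obtain ⟨c1, c2, c3⟩ := coupleA hc hR hr h2 w hw
    simp only [div_one] at c2 c3
    by_cases hw0 : ∀ a, 0 < w a
    · rw [hGe _ (c1.2 hw0), hGe _ (c2.2 hw0)]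
    · have z1 : G (fun a => R / c a * w a) = 0 := by
        by_contra h0
        exact hw0 (c1.1 (hGsup _ h0))
      have z2 : G (fun a => r * w a) = 0 := by
        by_contra h0
        exact hw0 (c2.1 (hGsup _ h0))
      rw [z1, z2]
  · rw [ENNReal.ofReal_of_nonpos (by linarith : 1 - ∑ a, w a ≤ 0), mul_zero, mul_zero]

end scaleA

/-! ## 6. Real integrals -/

/-- from nonnegative functions to functions of any sign -/
theorem real_of_lint {d : ℕ} {Ω : Set (Fin d → ℝ)} (hΩ : MeasurableSet Ω) (hfin : volume Ω ≠ ⊤)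
    {C t : (Fin d → ℝ) → ℝ} (hC : Measurable C) (ht : Measurable t) {B : ℝ}
    (hCb : ∀ u ∈ Ω, |C u| ≤ B) (htb : ∀ u ∈ Ω, |t u| ≤ B) (hC0 : ∀ u ∈ Ω, 0 ≤ C u) {K : ℝ}
    (hK : 0 ≤ K)
    (hle : ∀ h : (Fin d → ℝ) → ℝ, Measurable (Ω.indicator h) →
      (∀ u ∈ Ω, ∀ v ∈ Ω, u ≤ v → h v ≤ h u) →
      ∫⁻ u in Ω, ENNReal.ofReal (h u) * ENNReal.ofReal (C u) ≤
        ENNReal.ofReal K * ∫⁻ u in Ω, ENNReal.ofReal (h u) * ENNReal.ofReal (t u))
    (hone : ∫⁻ u in Ω, ENNReal.ofReal (C u) =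
      ENNReal.ofReal K * ∫⁻ u in Ω, ENNReal.ofReal (t u))
    (g : (Fin d → ℝ) → ℝ) {M : ℝ} (hM : ∀ u ∈ Ω, |g u| ≤ M) (hgm : Measurable (Ω.indicator g))
    (hanti : ∀ u ∈ Ω, ∀ v ∈ Ω, u ≤ v → g v ≤ g u) :
    ∫ u in Ω, g u * C u ≤ K * ∫ u in Ω, g u * max (t u) 0 := by
  have hgae : AEStronglyMeasurable g (volume.restrict Ω) := by
    refine (hgm.aestronglyMeasurable (μ := volume.restrict Ω)).congr ?_
    filter_upwards [ae_restrict_mem hΩ] with u hu
    rw [indicator_of_mem hu]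
  have : IsFiniteMeasure (volume.restrict Ω) := ⟨by
    rw [Measure.restrict_apply_univ]; exact lt_top_iff_ne_top.2 hfin⟩
  have hB0 : ∀ u ∈ Ω, 0 ≤ B := fun u hu => (abs_nonneg _).trans (hCb u hu)
  have iC : Integrable C (volume.restrict Ω) := by
    refine Integrable.of_bound hC.aestronglyMeasurable B ?_
    filter_upwards [ae_restrict_mem hΩ] with u hu
    exact hCb u hu
  have htm : Measurable fun u => max (t u) 0 := ht.max measurable_const
  have it : Integrable (fun u => max (t u) 0) (volume.restrict Ω) := by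
    refine Integrable.of_bound htm.aestronglyMeasurable B ?_
    filter_upwards [ae_restrict_mem hΩ] with u hu
    rw [Real.norm_eq_abs, abs_of_nonneg (le_max_right _ _)]
    exact max_le ((le_abs_self _).trans (htb u hu)) (hB0 u hu)
  have igC : Integrable (fun u => g u * C u) (volume.restrict Ω) := by
    refine iC.bdd_mul hgae (c := M) ?_
    filter_upwards [ae_restrict_mem hΩ] with u hu
    exact hM u hu
  have igt : Integrable (fun u => g u * max (t u) 0) (volume.restrict Ω) := by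
    refine it.bdd_mul hgae (c := M) ?_
    filter_upwards [ae_restrict_mem hΩ] with u hu
    exact hM u hu
  -- the shifted function
  have h1 := hle (fun u => g u + M) (by
      have : Ω.indicator (fun u => g u + M) = Ω.indicator g + Ω.indicator (fun _ => M) := by
        funext u
        by_cases hu : u ∈ Ω
        · simp [hu]
        · simp [hu]
      rw [this]
      exact hgm.add (measurable_const.indicator hΩ))
    (fun u hu v hv huv => by linarith [hanti u hu v hv huv])
  have hg0 : ∀ u ∈ Ω, 0 ≤ g u + M := fun u hu => by linarith [(abs_le.1 (hM u hu)).1]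
  have r1 : ∫⁻ u in Ω, ENNReal.ofReal (g u + M) * ENNReal.ofReal (C u) =
      ENNReal.ofReal (∫ u in Ω, (g u + M) * C u) := by
    rw [ofReal_integral_eq_lintegral_ofReal]
    · refine setLIntegral_congr_fun hΩ fun u hu => ?_
      exact (ENNReal.ofReal_mul (hg0 u hu)).symm
    · have : (fun u => (g u + M) * C u) = fun u => g u * C u + M * C u := by
        funext u; ring
      rw [this]
      exact igC.add (iC.const_mul M)
    · filter_upwards [ae_restrict_mem hΩ] with u hu
      exact mul_nonneg (hg0 u hu) (hC0 u hu)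
  have r2 : ∫⁻ u in Ω, ENNReal.ofReal (g u + M) * ENNReal.ofReal (t u) =
      ENNReal.ofReal (∫ u in Ω, (g u + M) * max (t u) 0) := by
    rw [ofReal_integral_eq_lintegral_ofReal]
    · refine setLIntegral_congr_fun hΩ fun u hu => ?_
      show ENNReal.ofReal (g u + M) * ENNReal.ofReal (t u) =
        ENNReal.ofReal ((g u + M) * max (t u) 0)
      rw [ENNReal.ofReal_mul (hg0 u hu)]
      congr 1
      rcases le_total (t u) 0 with h | h
      · rw [max_eq_right h, ENNReal.ofReal_of_nonpos h, ENNReal.ofReal_zero]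
      · rw [max_eq_left h]
    · have : (fun u => (g u + M) * max (t u) 0) = fun u => g u * max (t u) 0 + M * max (t u) 0 := by
        funext u; ring
      rw [this]
      exact igt.add (it.const_mul M)
    · filter_upwards [ae_restrict_mem hΩ] with u hu
      exact mul_nonneg (hg0 u hu) (le_max_right _ _)
  have r3 : ∫⁻ u in Ω, ENNReal.ofReal (C u) = ENNReal.ofReal (∫ u in Ω, C u) := by
    rw [ofReal_integral_eq_lintegral_ofReal iC]
    filter_upwards [ae_restrict_mem hΩ] with u hu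
    exact hC0 u hu
  have r4 : ∫⁻ u in Ω, ENNReal.ofReal (t u) = ENNReal.ofReal (∫ u in Ω, max (t u) 0) := by
    rw [ofReal_integral_eq_lintegral_ofReal it]
    · refine lintegral_congr fun u => ?_
      rcases le_total (t u) 0 with h | h
      · rw [max_eq_right h, ENNReal.ofReal_of_nonpos h, ENNReal.ofReal_zero]
      · rw [max_eq_left h]
    · filter_upwards with u
      exact le_max_right _ _
  have n1 : 0 ≤ ∫ u in Ω, C u := setIntegral_nonneg hΩ hC0
  have n2 : 0 ≤ ∫ u in Ω, max (t u) 0 := setIntegral_nonneg hΩ fun u _ => le_max_right _ _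
  have n3 : 0 ≤ ∫ u in Ω, (g u + M) * max (t u) 0 :=
    setIntegral_nonneg hΩ fun u hu => mul_nonneg (hg0 u hu) (le_max_right _ _)
  rw [r1, r2, ← ENNReal.ofReal_mul hK, ENNReal.ofReal_le_ofReal_iff (mul_nonneg hK n3)] at h1
  rw [r3, r4, ← ENNReal.ofReal_mul hK, ENNReal.ofReal_eq_ofReal_iff n1 (mul_nonneg hK n2)] at hone
  have s1 : ∫ u in Ω, (g u + M) * C u = (∫ u in Ω, g u * C u) + M * ∫ u in Ω, C u := by
    rw [← integral_const_mul, ← integral_add igC (iC.const_mul M)]
    refine integral_congr_ae (Filter.Eventually.of_forall fun u => ?_)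
    simp only
    ring
  have s2 : ∫ u in Ω, (g u + M) * max (t u) 0 =
      (∫ u in Ω, g u * max (t u) 0) + M * ∫ u in Ω, max (t u) 0 := by
    rw [← integral_const_mul, ← integral_add igt (it.const_mul M)]
    refine integral_congr_ae (Filter.Eventually.of_forall fun u => ?_)
    simp only
    ring
  rw [s1, s2, hone] at h1
  nlinarith

/-! ## 7. Final form -/

theorem list_sum {d : ℕ} {Ω : Set (Fin d → ℝ)} {g C : (Fin d → ℝ) → ℝ} {t : ℝ → (Fin d → ℝ) → ℝ}
    {a : ℝ → ℝ} (iC : IntegrableOn (fun u => g u * C u) Ω) (l : List ℝ)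
    (h : ∀ r ∈ l, IntegrableOn (fun u => g u * t r u) Ω ∧
      a r * ∫ u in Ω, g u * C u ≤ ∫ u in Ω, g u * t r u) :
    IntegrableOn (fun u => g u * ((l.map a).sum * C u - (l.map fun r => t r u).sum)) Ω ∧
      ∫ u in Ω, g u * ((l.map a).sum * C u - (l.map fun r => t r u).sum) ≤ 0 := by
  induction l with
  | nil => simp
  | cons r l ih =>
    obtain ⟨i1, h1⟩ := h r (by simp)
    obtain ⟨i2, h2⟩ := ih fun r' hr' => h r' (by simp [hr'])
    have e : (fun u => g u * (((r :: l).map a).sum * C u - ((r :: l).map fun r => t r u).sum)) =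
        fun u => (a r * (g u * C u) - g u * t r u) +
          g u * ((l.map a).sum * C u - (l.map fun r => t r u).sum) := by
      funext u
      simp only [List.map_cons, List.sum_cons]
      ring
    have i3 : IntegrableOn (fun u => a r * (g u * C u) - g u * t r u) Ω := (iC.const_mul _).sub i1
    rw [e]
    refine ⟨i3.add i2, ?_⟩
    rw [integral_add i3 i2, integral_sub (iC.const_mul _) i1, integral_const_mul]
    linarith

section final

variable {d : ℕ}

/-- the model `{u ≥ 0, l(u) < R}` -/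
def Omc (c : Fin d → ℝ) (R : ℝ) : Set (Fin d → ℝ) := {u | (∀ a, 0 ≤ u a) ∧ ∑ a, c a * u a < R}

/-- the model `{u ≥ 0, l(u) < R, u i < ρ}` -/
def Omi (i : Fin d) (c : Fin d → ℝ) (R ρ : ℝ) : Set (Fin d → ℝ) :=
  {u | (∀ a, 0 ≤ u a) ∧ ∑ a, c a * u a < R ∧ u i < ρ}

theorem null_face (a : Fin d) : volume {u : Fin d → ℝ | u a = 0} = 0 :=
  Measure.pi_hyperplane _ a 0

theorem ae_pos : ∀ᵐ u : Fin d → ℝ, ∀ a, u a ≠ 0 := by
  rw [ae_all_iff]
  intro a
  rw [ae_iff]
  simpa using null_face a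

theorem Omc_ae (c : Fin d → ℝ) (R : ℝ) : (Omc c R : Set (Fin d → ℝ)) =ᵐ[volume] OmA c R := by
  filter_upwards [ae_pos] with u hu
  refine propext ⟨fun h => ⟨fun a => lt_of_le_of_ne (h.1 a) (hu a).symm, h.2⟩,
    fun h => ⟨fun a => (h.1 a).le, h.2⟩⟩

/-- bounded boxes have finite volume -/
theorem fin_vol {Ω : Set (Fin d → ℝ)} {B : ℝ} (h : ∀ u ∈ Ω, ∀ a, 0 ≤ u a ∧ u a ≤ B) :
    volume Ω ≠ ⊤ := by
  have h1 : Ω ⊆ Icc (fun _ => 0) (fun _ => B) := fun u hu =>
    ⟨fun a => (h u hu a).1, fun a => (h u hu a).2⟩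
  exact ((measure_mono h1).trans_lt (isCompact_Icc.measure_lt_top)).ne

theorem indicator_meas {Ω : Set (Fin d → ℝ)} (hΩ : MeasurableSet Ω) {g : (Fin d → ℝ) → ℝ}
    (hg : ContinuousOn g Ω) : Measurable (Ω.indicator g) := by
  classical
  have h := hg.measurable_piecewise (g := (0 : (Fin d → ℝ) → ℝ)) continuousOn_const hΩ
  rwa [Set.piecewise_eq_indicator] at h

theorem coord_le {c : Fin d → ℝ} (hc : ∀ a, 0 < c a) {R : ℝ} {u : Fin d → ℝ} (h0 : ∀ a, 0 ≤ u a)
    (h1 : ∑ a, c a * u a < R) (a : Fin d) : u a ≤ ∑ a, R / c a := by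
  have hR : 0 < R := lt_of_le_of_lt (Finset.sum_nonneg fun a _ => mul_nonneg (hc a).le (h0 a)) h1
  have h2 : c a * u a ≤ ∑ a, c a * u a :=
    Finset.single_le_sum (f := fun a => c a * u a) (fun a _ => mul_nonneg (hc a).le (h0 a))
      (Finset.mem_univ a)
  have h3 : u a ≤ R / c a := by
    rw [le_div_iff₀ (hc a)]
    linarith [mul_comm (c a) (u a)]
  exact h3.trans (Finset.single_le_sum (f := fun a => R / c a)
    (fun a _ => (div_pos hR (hc a)).le) (Finset.mem_univ a))

/-- DOMINATION, case (A): all balls satisfy `c a * r ≤ R` for all `a`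
(for the 4-cycle: all `r ≤ R / 2`). -/
theorem domA {c : Fin d → ℝ} (hc : ∀ a, 0 < c a) {R : ℝ} (hR : 0 < R) (rs : List ℝ)
    (hrs : ∀ r ∈ rs, 0 < r ∧ ∀ a, c a * r ≤ R) {κ : ℝ}
    (hκ : κ * R ^ (d + 1) = (∏ a, c a) * (rs.map fun r => r ^ (d + 1)).sum)
    {g : (Fin d → ℝ) → ℝ} {M : ℝ} (hM : ∀ u ∈ Omc c R, |g u| ≤ M)
    (hcont : ContinuousOn g (Omc c R))
    (hanti : ∀ u ∈ Omc c R, ∀ v ∈ Omc c R, u ≤ v → g v ≤ g u) :
    ∫ u in Omc c R, g u * (κ * (R - ∑ a, c a * u a) -
      (rs.map fun r => max (r - ∑ a, u a) 0).sum) ≤ 0 := by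
  have hsub : OmA c R ⊆ Omc c R := fun u hu => ⟨fun a => (hu.1 a).le, hu.2⟩
  rw [setIntegral_congr_set (Omc_ae c R)]
  have hP : 0 < ∏ a, c a := Finset.prod_pos fun a _ => hc a
  have hRn : 0 < R ^ (d + 1) := by positivity
  have hgm := indicator_meas (OmA_meas (c := c) (R := R)) (hcont.mono hsub)
  have hfin : volume (OmA c R) ≠ ⊤ :=
    fin_vol (B := ∑ a, R / c a) fun u hu a => ⟨(hu.1 a).le, coord_le hc (fun a => (hu.1 a).le) hu.2 a⟩
  have : IsFiniteMeasure (volume.restrict (OmA c R)) := ⟨by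
    rw [Measure.restrict_apply_univ]; exact lt_top_iff_ne_top.2 hfin⟩
  have hgae : AEStronglyMeasurable g (volume.restrict (OmA c R)) := by
    refine (hgm.aestronglyMeasurable (μ := volume.restrict (OmA c R))).congr ?_
    filter_upwards [ae_restrict_mem OmA_meas] with u hu
    rw [indicator_of_mem hu]
  have hCm : Measurable fun u : Fin d → ℝ => R - ∑ a, c a * u a := by fun_prop
  have hC0 : ∀ u ∈ OmA c R, 0 ≤ R - ∑ a, c a * u a := fun u hu => by linarith [hu.2]
  have hl0 : ∀ u ∈ OmA c R, 0 ≤ ∑ a, c a * u a := fun u hu =>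
    Finset.sum_nonneg fun a _ => mul_nonneg (hc a).le (hu.1 a).le
  have hs0 : ∀ u ∈ OmA c R, 0 ≤ ∑ a, u a := fun u hu => Finset.sum_nonneg fun a _ => (hu.1 a).le
  have iC : IntegrableOn (fun u => g u * (R - ∑ a, c a * u a)) (OmA c R) := by
    have h1 : Integrable (fun u : Fin d → ℝ => R - ∑ a, c a * u a) (volume.restrict (OmA c R)) := by
      refine Integrable.of_bound hCm.aestronglyMeasurable R ?_
      filter_upwards [ae_restrict_mem OmA_meas] with u hu
      rw [Real.norm_eq_abs, abs_of_nonneg (hC0 u hu)]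
      linarith [hl0 u hu]
    refine h1.bdd_mul hgae (c := M) ?_
    filter_upwards [ae_restrict_mem OmA_meas] with u hu
    exact hM u (hsub hu)
  have key := list_sum (Ω := OmA c R) (g := g) (C := fun u => R - ∑ a, c a * u a)
    (t := fun r u => max (r - ∑ a, u a) 0)
    (a := fun r => (∏ a, c a) * r ^ (d + 1) / R ^ (d + 1)) iC rs (by
      intro r hr
      obtain ⟨hr0, hr2⟩ := hrs r hr
      have htm : Measurable fun u : Fin d → ℝ => r - ∑ a, u a := by fun_prop
      refine ⟨?_, ?_⟩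
      · have h1 : Integrable (fun u : Fin d → ℝ => max (r - ∑ a, u a) 0)
            (volume.restrict (OmA c R)) := by
          refine Integrable.of_bound (htm.max measurable_const).aestronglyMeasurable r ?_
          filter_upwards [ae_restrict_mem OmA_meas] with u hu
          rw [Real.norm_eq_abs, abs_of_nonneg (le_max_right _ _)]
          exact max_le (by linarith [hs0 u hu]) hr0.le
        refine h1.bdd_mul hgae (c := M) ?_
        filter_upwards [ae_restrict_mem OmA_meas] with u hu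
        exact hM u (hsub hu)
      · have hK : 0 < R ^ (d + 1) / r ^ (d + 1) / ∏ a, c a := by positivity
        have h2 := real_of_lint (Ω := OmA c R) OmA_meas hfin hCm htm
          (B := R + r + ∑ a, ∑ a, R / c a) (by
            intro u hu
            rw [abs_of_nonneg (hC0 u hu)]
            have h3 : 0 ≤ ∑ a : Fin d, ∑ a, R / c a := Finset.sum_nonneg fun _ _ =>
              Finset.sum_nonneg fun a _ => (div_pos hR (hc a)).le
            linarith [hl0 u hu])
          (by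
            intro u hu
            have h3 : ∑ a, u a ≤ ∑ a : Fin d, ∑ a, R / c a := Finset.sum_le_sum fun a _ =>
              coord_le hc (fun a => (hu.1 a).le) hu.2 a
            rw [abs_le]
            constructor <;> linarith [hs0 u hu])
          hC0 hK.le
          (fun h hm ha => ball_leA hc hR hr0 hr2 h hm ha)
          (ball_oneA hc hR hr0 hr2) g (fun u hu => hM u (hsub hu)) hgm
          (fun u hu v hv huv => hanti u (hsub hu) v (hsub hv) huv)
        have h4 : (∏ a, c a) * r ^ (d + 1) / R ^ (d + 1) * (R ^ (d + 1) / r ^ (d + 1) / ∏ a, c a) =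
            1 := by field_simp
        have h5 := mul_le_mul_of_nonneg_left h2
          (by positivity : 0 ≤ (∏ a, c a) * r ^ (d + 1) / R ^ (d + 1))
        rw [← mul_assoc, h4, one_mul] at h5
        exact h5)
  have hκ' : (rs.map fun r => (∏ a, c a) * r ^ (d + 1) / R ^ (d + 1)).sum = κ := by
    have h1 : (rs.map fun r => (∏ a, c a) * r ^ (d + 1) / R ^ (d + 1)) =
        rs.map fun r => ((∏ a, c a) / R ^ (d + 1)) * r ^ (d + 1) := by
      refine List.map_congr_left fun r _ => ?_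
      ring
    rw [h1, List.sum_map_mul_left, div_mul_eq_mul_div, div_eq_iff hRn.ne', hκ]
  rw [hκ'] at key
  exact key.2

/-- DOMINATION, cases (B) and (C): the model cut by the single coordinate `i` (weight `1`) at
height `R - r0` (`r0` = the big ball, `0 ≤ r0 < R`); all other balls satisfy `r ≤ R - r0` and
`c a * r ≤ R`.  (For `r0 = 0` the cut is empty.) -/
theorem domB {m : ℕ} (i : Fin (m + 1)) {c : Fin (m + 1) → ℝ} (hc : ∀ a, 0 < c a) (hci : c i = 1)
    {R r0 : ℝ} (hr0 : 0 ≤ r0) (hR : r0 < R) (rs : List ℝ)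
    (hrs : ∀ r ∈ rs, 0 < r ∧ r ≤ R - r0 ∧ ∀ a, c a * r ≤ R) {κ : ℝ}
    (hκ : κ * (R ^ (m + 2) - r0 ^ (m + 2)) = (∏ a, c a) * (rs.map fun r => r ^ (m + 2)).sum)
    {g : (Fin (m + 1) → ℝ) → ℝ} {M : ℝ} (hM : ∀ u ∈ Omi i c R (R - r0), |g u| ≤ M)
    (hcont : ContinuousOn g (Omi i c R (R - r0)))
    (hanti : ∀ u ∈ Omi i c R (R - r0), ∀ v ∈ Omi i c R (R - r0), u ≤ v → g v ≤ g u) :
    ∫ u in Omi i c R (R - r0), g u * (κ * (R - ∑ a, c a * u a) -
      (rs.map fun r => max (r - ∑ a, u a) 0).sum) ≤ 0 := by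
  set c' : Fin m → ℝ := fun b => c (i.succAbove b) with hc'
  have hc'0 : ∀ b, 0 < c' b := fun b => hc _
  have hsum : ∀ u : Fin (m + 1) → ℝ, ∑ a, c a * u a = u i + ∑ b, c' b * u (i.succAbove b) := by
    intro u
    rw [Fin.sum_univ_succAbove _ i, hci, one_mul]
  have hprod : ∏ a, c a = ∏ b, c' b := by
    rw [Fin.prod_univ_succAbove _ i, hci, one_mul]
  have hsub : Om i c' R r0 ⊆ Omi i c R (R - r0) := fun u hu =>
    ⟨fun a => (hu.1 a).le, by rw [hsum]; exact hu.2.1, hu.2.2⟩
  have hae : (Omi i c R (R - r0) : Set (Fin (m + 1) → ℝ)) =ᵐ[volume] Om i c' R r0 := by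
    filter_upwards [ae_pos] with u hu
    refine propext ⟨fun h => ⟨fun a => lt_of_le_of_ne (h.1 a) (hu a).symm, ?_, h.2.2⟩,
      fun h => hsub h⟩
    rw [← hsum]
    exact h.2.1
  rw [setIntegral_congr_set hae]
  have hRp : 0 < R := lt_of_le_of_lt hr0 hR
  have hP : 0 < ∏ b, c' b := Finset.prod_pos fun b _ => hc'0 b
  have hpos : 0 < R ^ (m + 2) - r0 ^ (m + 2) :=
    sub_pos.2 (pow_lt_pow_left₀ hR hr0 (by omega))
  have hΩ : MeasurableSet (Om i c' R r0) := Om_meas i
  have hgm := indicator_meas hΩ (hcont.mono hsub)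
  have hco : ∀ u ∈ Om i c' R r0, ∀ a, u a ≤ ∑ a, R / c a := fun u hu a =>
    coord_le hc (fun a => (hu.1 a).le) (by rw [hsum]; exact hu.2.1) a
  have hfin : volume (Om i c' R r0) ≠ ⊤ :=
    fin_vol (B := ∑ a, R / c a) fun u hu a => ⟨(hu.1 a).le, hco u hu a⟩
  have : IsFiniteMeasure (volume.restrict (Om i c' R r0)) := ⟨by
    rw [Measure.restrict_apply_univ]; exact lt_top_iff_ne_top.2 hfin⟩
  have hgae : AEStronglyMeasurable g (volume.restrict (Om i c' R r0)) := by
    refine (hgm.aestronglyMeasurable (μ := volume.restrict (Om i c' R r0))).congr ?_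
    filter_upwards [ae_restrict_mem hΩ] with u hu
    rw [indicator_of_mem hu]
  have hCm : Measurable fun u : Fin (m + 1) → ℝ => R - ∑ a, c a * u a := by fun_prop
  have hC0 : ∀ u ∈ Om i c' R r0, 0 ≤ R - ∑ a, c a * u a := fun u hu => by
    rw [hsum]
    linarith [hu.2.1]
  have hl0 : ∀ u ∈ Om i c' R r0, 0 ≤ ∑ a, c a * u a := fun u hu =>
    Finset.sum_nonneg fun a _ => mul_nonneg (hc a).le (hu.1 a).le
  have hs0 : ∀ u ∈ Om i c' R r0, 0 ≤ ∑ a, u a := fun u hu =>
    Finset.sum_nonneg fun a _ => (hu.1 a).le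
  have iC : IntegrableOn (fun u => g u * (R - ∑ a, c a * u a)) (Om i c' R r0) := by
    have h1 : Integrable (fun u : Fin (m + 1) → ℝ => R - ∑ a, c a * u a)
        (volume.restrict (Om i c' R r0)) := by
      refine Integrable.of_bound hCm.aestronglyMeasurable R ?_
      filter_upwards [ae_restrict_mem hΩ] with u hu
      rw [Real.norm_eq_abs, abs_of_nonneg (hC0 u hu)]
      linarith [hl0 u hu]
    refine h1.bdd_mul hgae (c := M) ?_
    filter_upwards [ae_restrict_mem hΩ] with u hu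
    exact hM u (hsub hu)
  have key := list_sum (Ω := Om i c' R r0) (g := g) (C := fun u => R - ∑ a, c a * u a)
    (t := fun r u => max (r - ∑ a, u a) 0)
    (a := fun r => (∏ b, c' b) * r ^ (m + 2) / (R ^ (m + 2) - r0 ^ (m + 2))) iC rs (by
      intro r hr
      obtain ⟨hrp, hr1, hr2⟩ := hrs r hr
      have hr2' : ∀ b, c' b * r ≤ R := fun b => hr2 _
      have htm : Measurable fun u : Fin (m + 1) → ℝ => r - ∑ a, u a := by fun_prop
      refine ⟨?_, ?_⟩
      · have h1 : Integrable (fun u : Fin (m + 1) → ℝ => max (r - ∑ a, u a) 0)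
            (volume.restrict (Om i c' R r0)) := by
          refine Integrable.of_bound (htm.max measurable_const).aestronglyMeasurable r ?_
          filter_upwards [ae_restrict_mem hΩ] with u hu
          rw [Real.norm_eq_abs, abs_of_nonneg (le_max_right _ _)]
          exact max_le (by linarith [hs0 u hu]) hrp.le
        refine h1.bdd_mul hgae (c := M) ?_
        filter_upwards [ae_restrict_mem hΩ] with u hu
        exact hM u (hsub hu)
      · have hK : 0 < (R ^ (m + 2) - r0 ^ (m + 2)) / r ^ (m + 2) / ∏ b, c' b := by positivity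
        have h2 := real_of_lint (Ω := Om i c' R r0) hΩ hfin hCm htm
          (B := R + r + ∑ a : Fin (m + 1), ∑ a, R / c a) (by
            intro u hu
            rw [abs_of_nonneg (hC0 u hu)]
            have h3 : 0 ≤ ∑ a : Fin (m + 1), ∑ a, R / c a := Finset.sum_nonneg fun _ _ =>
              Finset.sum_nonneg fun a _ => (div_pos hRp (hc a)).le
            linarith [hl0 u hu])
          (by
            intro u hu
            have h3 : ∑ a, u a ≤ ∑ a : Fin (m + 1), ∑ a, R / c a := Finset.sum_le_sum fun a _ =>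
              hco u hu a
            rw [abs_le]
            constructor <;> linarith [hs0 u hu])
          hC0 hK.le
          (fun h hm ha => by
            have := ball_le i hc'0 hr0 hR hrp hr1 hr2' h hm ha
            simp_rw [hsum]
            exact this)
          (by
            have := ball_one i hc'0 hr0 hR hrp hr1 hr2'
            simp_rw [hsum]
            exact this) g (fun u hu => hM u (hsub hu)) hgm
          (fun u hu v hv huv => hanti u (hsub hu) v (hsub hv) huv)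
        have h4 : (∏ b, c' b) * r ^ (m + 2) / (R ^ (m + 2) - r0 ^ (m + 2)) *
            ((R ^ (m + 2) - r0 ^ (m + 2)) / r ^ (m + 2) / ∏ b, c' b) = 1 := by
          have := hpos.ne'
          field_simp
        have h5 := mul_le_mul_of_nonneg_left h2
          (by positivity : 0 ≤ (∏ b, c' b) * r ^ (m + 2) / (R ^ (m + 2) - r0 ^ (m + 2)))
        rw [← mul_assoc, h4, one_mul] at h5
        exact h5)
  have hκ' : (rs.map fun r => (∏ b, c' b) * r ^ (m + 2) / (R ^ (m + 2) - r0 ^ (m + 2))).sum =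
      κ := by
    have h1 : (rs.map fun r => (∏ b, c' b) * r ^ (m + 2) / (R ^ (m + 2) - r0 ^ (m + 2))) =
        rs.map fun r => ((∏ b, c' b) / (R ^ (m + 2) - r0 ^ (m + 2))) * r ^ (m + 2) := by
      refine List.map_congr_left fun r _ => ?_
      ring
    rw [h1, List.sum_map_mul_left, div_mul_eq_mul_div, div_eq_iff hpos.ne', hκ, hprod]
  rw [hκ'] at key
  exact key.2

end final

end Vale.Agent.P209.H519
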