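import Vale.Agent.P209.H519.Dom

/-! # P209 / Tetris, n = 3, one big ball: domination for the model of helper889 (note 7833).
Owner: helper519. -/

set_option linter.all false

open MeasureTheory Set
open scoped ENNReal

namespace Vale.Agent.P209.H519

/-! ## 1. One crossing -/

/-- if `a ≤ b` before the crossing `s`, `b ≤ a` after it, `∫ a = ∫ b < ∞` and `A` is nonincreasing,
then `∫ a A ≤ ∫ b A` -/
theorem cross {T s : ℝ} {a b A : ℝ → ℝ≥0∞} (ha : Measurable a) (hb : Measurable b)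
    (hA : AEMeasurable A (volume.restrict (Ioo 0 T))) (hs : s ∈ Icc 0 T)
    (hlt : ∀ t ∈ Ioo 0 s, a t ≤ b t) (hgt : ∀ t ∈ Ioo s T, b t ≤ a t)
    (heq : ∫⁻ t in Ioo 0 T, a t = ∫⁻ t in Ioo 0 T, b t) (hfin : ∫⁻ t in Ioo 0 T, b t ≠ ⊤)
    (As : ℝ≥0∞) (hA1 : ∀ t ∈ Ioo 0 s, As ≤ A t) (hA2 : ∀ t ∈ Ioo s T, A t ≤ As) :
    ∫⁻ t in Ioo 0 T, a t * A t ≤ ∫⁻ t in Ioo 0 T, b t * A t := by
  have hdisj : Disjoint (Ioo 0 s) (Ioo s T) := by
    rw [Set.disjoint_left]
    intro x h1 h2
    exact absurd h1.2 (not_lt.2 h2.1.le)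
  have hun : (Ioo 0 T : Set ℝ) =ᵐ[volume] (Ioo 0 s ∪ Ioo s T : Set ℝ) := by
    have h0 : ∀ᵐ t : ℝ, t ≠ s := by
      rw [ae_iff]
      simp
    filter_upwards [h0] with t ht
    refine propext ⟨fun h => ?_, fun h => ?_⟩
    · rcases lt_or_gt_of_ne ht with h1 | h1
      · exact Or.inl ⟨h.1, h1⟩
      · exact Or.inr ⟨h1, h.2⟩
    · rcases h with h | h
      · exact ⟨h.1, h.2.trans_le hs.2⟩
      · exact ⟨hs.1.trans_lt h.1, h.2⟩
  have split : ∀ F : ℝ → ℝ≥0∞, ∫⁻ t in Ioo 0 T, F t =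
      (∫⁻ t in Ioo 0 s, F t) + ∫⁻ t in Ioo s T, F t := by
    intro F
    rw [setLIntegral_congr hun, lintegral_union measurableSet_Ioo hdisj]
  have hA1m : AEMeasurable A (volume.restrict (Ioo 0 s)) :=
    hA.mono_measure (Measure.restrict_mono (Ioo_subset_Ioo le_rfl hs.2) le_rfl)
  have hA2m : AEMeasurable A (volume.restrict (Ioo s T)) :=
    hA.mono_measure (Measure.restrict_mono (Ioo_subset_Ioo hs.1 le_rfl) le_rfl)
  -- the transported mass
  set x : ℝ≥0∞ := ∫⁻ t in Ioo 0 s, (b t - a t) with hx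
  set y : ℝ≥0∞ := ∫⁻ t in Ioo s T, (a t - b t) with hy
  have e1 : ∫⁻ t in Ioo 0 s, b t = (∫⁻ t in Ioo 0 s, a t) + x := by
    rw [hx, ← lintegral_add_left ha]
    refine setLIntegral_congr_fun measurableSet_Ioo fun t ht => ?_
    exact (add_tsub_cancel_of_le (hlt t ht)).symm
  have e2 : ∫⁻ t in Ioo s T, a t = (∫⁻ t in Ioo s T, b t) + y := by
    rw [hy, ← lintegral_add_left hb]
    refine setLIntegral_congr_fun measurableSet_Ioo fun t ht => ?_
    exact (add_tsub_cancel_of_le (hgt t ht)).symm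
  have hfb : (∫⁻ t in Ioo 0 s, b t) + ∫⁻ t in Ioo s T, b t ≠ ⊤ := by rwa [← split]
  have f1 : ∫⁻ t in Ioo 0 s, a t ≠ ⊤ := by
    intro h
    rw [e1, h] at hfb
    simp at hfb
  have f2 : ∫⁻ t in Ioo s T, b t ≠ ⊤ := fun h => hfb (by rw [h]; simp)
  have exy : x = y := by
    rw [split, split, e1, e2] at heq
    have h1 : (∫⁻ t in Ioo 0 s, a t) + (∫⁻ t in Ioo s T, b t) + y =
        (∫⁻ t in Ioo 0 s, a t) + (∫⁻ t in Ioo s T, b t) + x := by
      calc _ = (∫⁻ t in Ioo 0 s, a t) + ((∫⁻ t in Ioo s T, b t) + y) := by ring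
        _ = _ := heq
        _ = _ := by ring
    exact ((ENNReal.add_right_inj (ENNReal.add_ne_top.2 ⟨f1, f2⟩)).1 h1).symm
  rw [split, split]
  have hba : Measurable fun t => b t - a t := hb.sub ha
  have hab : Measurable fun t => a t - b t := ha.sub hb
  have g1 : (∫⁻ t in Ioo 0 s, a t * A t) + As * x ≤ ∫⁻ t in Ioo 0 s, b t * A t := by
    rw [hx, ← lintegral_const_mul As hba, ← lintegral_add_right _ (hba.const_mul As)]
    refine setLIntegral_mono' measurableSet_Ioo fun t ht => ?_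
    calc a t * A t + As * (b t - a t) ≤ a t * A t + A t * (b t - a t) := by
          gcongr
          exact hA1 t ht
      _ = (a t + (b t - a t)) * A t := by ring
      _ = b t * A t := by rw [add_tsub_cancel_of_le (hlt t ht)]
  have g2 : ∫⁻ t in Ioo s T, a t * A t ≤ (∫⁻ t in Ioo s T, b t * A t) + As * y := by
    rw [hy, ← lintegral_const_mul As hab, ← lintegral_add_right _ (hab.const_mul As)]
    refine setLIntegral_mono' measurableSet_Ioo fun t ht => ?_
    calc a t * A t = (b t + (a t - b t)) * A t := by rw [add_tsub_cancel_of_le (hgt t ht)]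
      _ = b t * A t + A t * (a t - b t) := by ring
      _ ≤ b t * A t + As * (a t - b t) := by
          gcongr
          exact hA2 t ht
  calc (∫⁻ t in Ioo 0 s, a t * A t) + ∫⁻ t in Ioo s T, a t * A t
      ≤ (∫⁻ t in Ioo 0 s, a t * A t) + ((∫⁻ t in Ioo s T, b t * A t) + As * y) := by gcongr
    _ = ((∫⁻ t in Ioo 0 s, a t * A t) + As * x) + ∫⁻ t in Ioo s T, b t * A t := by
        rw [exy]; ring
    _ ≤ (∫⁻ t in Ioo 0 s, b t * A t) + ∫⁻ t in Ioo s T, b t * A t := by gcongr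

/-! ## 2. Diagonal slices -/

/-- integration over the slices `u 0 + u 1 = t` -/
theorem diag (F : ℝ → ℝ → ℝ≥0∞) (hF : Measurable (Function.uncurry F)) :
    ∫⁻ u : Fin 2 → ℝ, F (u 0) (u 1) = ∫⁻ t : ℝ, ∫⁻ x : ℝ, F x (t - x) := by
  have h := (volume_preserving_finTwoArrow ℝ)
  have h1 : ∫⁻ u : Fin 2 → ℝ, F (u 0) (u 1) = ∫⁻ p : ℝ × ℝ, Function.uncurry F p := by
    rw [← h.lintegral_comp hF]
    rfl
  rw [h1, Measure.volume_eq_prod, lintegral_prod _ hF.aemeasurable]
  have h2 : ∀ x : ℝ, ∫⁻ y : ℝ, Function.uncurry F (x, y) = ∫⁻ t : ℝ, F x (t - x) := by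
    intro x
    exact (lintegral_sub_right_eq_self (fun y => F x y) x).symm
  simp_rw [h2]
  rw [lintegral_lintegral_swap]
  have h3 : Measurable fun p : ℝ × ℝ => Function.uncurry F (p.1, p.2 - p.1) :=
    hF.comp (measurable_fst.prodMk (measurable_snd.sub measurable_fst))
  exact h3.aemeasurable


/-! ## 3. The model of helper889 -/

section model

variable {R c : ℝ}

/-- the open model -/
def Om3 (R c : ℝ) : Set (Fin 2 → ℝ) := {u | 0 < u 0 ∧ 0 < u 1 ∧ u 0 < c ∧ u 0 + u 1 < (R + c) / 3}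

/-- the model with the two faces -/
def Om3c (R c : ℝ) : Set (Fin 2 → ℝ) :=
  {u | 0 ≤ u 0 ∧ 0 ≤ u 1 ∧ u 0 < c ∧ u 0 + u 1 < (R + c) / 3}

theorem Om3_meas : MeasurableSet (Om3 R c) := by
  have h : Om3 R c = {u | 0 < u 0} ∩ ({u | 0 < u 1} ∩ ({u | u 0 < c} ∩
      {u | u 0 + u 1 < (R + c) / 3})) := by
    ext u
    simp [Om3]
  rw [h]
  refine (measurableSet_lt measurable_const (measurable_pi_apply 0)).inter
    ((measurableSet_lt measurable_const (measurable_pi_apply 1)).inter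
    ((measurableSet_lt (measurable_pi_apply 0) measurable_const).inter
    (measurableSet_lt (by fun_prop) measurable_const)))

/-- the point of the slice `t` with parameter `σ` -/
noncomputable def pt (c t σ : ℝ) : Fin 2 → ℝ := ![min t c * σ, t - min t c * σ]

/-- the mean of `h` on the slice `t` (times the length) -/
noncomputable def Asl (c : ℝ) (h : (Fin 2 → ℝ) → ℝ) (t : ℝ) : ℝ≥0∞ :=
  ∫⁻ σ in Ioo (0 : ℝ) 1, ENNReal.ofReal (h (pt c t σ))

theorem pt_mem (hc : 0 < c) {t σ : ℝ} (ht : t ∈ Ioo 0 ((R + c) / 3)) (hσ : σ ∈ Ioo (0 : ℝ) 1) :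
    pt c t σ ∈ Om3 R c := by
  have hw : 0 < min t c := lt_min ht.1 hc
  have h1 : min t c * σ < min t c := by nlinarith [hσ.2]
  refine ⟨?_, ?_, ?_, ?_⟩
  · show 0 < min t c * σ
    exact mul_pos hw hσ.1
  · show 0 < t - min t c * σ
    linarith [min_le_left t c]
  · show min t c * σ < c
    linarith [min_le_right t c]
  · show min t c * σ + (t - min t c * σ) < (R + c) / 3
    linarith [ht.2]

theorem pt_mono {t t' σ : ℝ} (h : t ≤ t') (hσ : σ ∈ Ioo (0 : ℝ) 1) : pt c t σ ≤ pt c t' σ := by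
  have hw : min t c ≤ min t' c := min_le_min_right c h
  have hw2 : min t' c - min t c ≤ t' - t := by
    rcases le_total t c with h1 | h1
    · rw [min_eq_left h1]
      linarith [min_le_left t' c]
    · rw [min_eq_right h1, min_eq_right (h1.trans h)]
      linarith
  intro a
  fin_cases a
  · show min t c * σ ≤ min t' c * σ
    exact mul_le_mul_of_nonneg_right hw hσ.1.le
  · show t - min t c * σ ≤ t' - min t' c * σ
    nlinarith [hσ.1, hσ.2, mul_nonneg (sub_nonneg.2 hw) (sub_nonneg.2 hσ.2.le)]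

theorem Asl_anti (hc : 0 < c) {h : (Fin 2 → ℝ) → ℝ}
    (hanti : ∀ u ∈ Om3 R c, ∀ v ∈ Om3 R c, u ≤ v → h v ≤ h u) :
    AntitoneOn (Asl c h) (Ioo 0 ((R + c) / 3)) := by
  intro t ht t' ht' htt
  refine setLIntegral_mono' measurableSet_Ioo fun σ hσ => ?_
  exact ENNReal.ofReal_le_ofReal (hanti _ (pt_mem hc ht hσ) _ (pt_mem hc ht' hσ) (pt_mono htt hσ))

/-- slices of an integral over the model -/
theorem model3 (hc : 0 < c) (h : (Fin 2 → ℝ) → ℝ) (hm : Measurable ((Om3 R c).indicator h))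
    (F : ℝ → ℝ≥0∞) (hF : Measurable F) :
    ∫⁻ u in Om3 R c, ENNReal.ofReal (h u) * F (u 0 + u 1) =
      ∫⁻ t in Ioo 0 ((R + c) / 3), (F t * ENNReal.ofReal (min t c)) * Asl c h t := by
  set G : (Fin 2 → ℝ) → ℝ≥0∞ := fun u => ENNReal.ofReal ((Om3 R c).indicator h u) with hG
  have hGm : Measurable G := hm.ennreal_ofReal
  have hGsup : ∀ u, G u ≠ 0 → u ∈ Om3 R c := by
    intro u hu
    by_contra h0
    exact hu (by rw [hG]; simp [indicator_of_notMem h0])
  have hGe : ∀ u ∈ Om3 R c, G u = ENNReal.ofReal (h u) := fun u hu => by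
    rw [hG]; simp only [indicator_of_mem hu]
  have e1 : ∫⁻ u in Om3 R c, ENNReal.ofReal (h u) * F (u 0 + u 1) =
      ∫⁻ u, G u * F (u 0 + u 1) := by
    rw [← lintegral_indicator Om3_meas]
    refine lintegral_congr fun u => ?_
    by_cases hu : u ∈ Om3 R c
    · rw [indicator_of_mem hu, hGe u hu]
    · rw [indicator_of_notMem hu]
      have : G u = 0 := by
        by_contra h0
        exact hu (hGsup u h0)
      rw [this, zero_mul]
  have hpair : Measurable fun p : ℝ × ℝ => (![p.1, p.2] : Fin 2 → ℝ) := by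
    refine measurable_pi_lambda _ fun a => ?_
    fin_cases a
    · exact measurable_fst
    · exact measurable_snd
  have e2 : ∫⁻ u, G u * F (u 0 + u 1) =
      ∫⁻ t : ℝ, ∫⁻ x : ℝ, G ![x, t - x] * F (x + (t - x)) := by
    have h1 := diag (fun x y => G ![x, y] * F (x + y)) (by
      refine (hGm.comp hpair).mul (hF.comp (measurable_fst.add measurable_snd)))
    rw [← h1]
    refine lintegral_congr fun u => ?_
    have : (![u 0, u 1] : Fin 2 → ℝ) = u := by
      funext a
      fin_cases a <;> rfl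
    rw [this]
  rw [e1, e2, ← lintegral_indicator measurableSet_Ioo]
  refine lintegral_congr fun t => ?_
  have hmt : Measurable fun x : ℝ => G ![x, t - x] := by
    have : Measurable fun x : ℝ => ((x, t - x) : ℝ × ℝ) := by fun_prop
    exact hGm.comp (hpair.comp this)
  have e3 : ∀ x : ℝ, G ![x, t - x] * F (x + (t - x)) = F t * G ![x, t - x] := by
    intro x
    rw [add_sub_cancel, mul_comm]
  simp_rw [e3]
  rw [lintegral_const_mul _ hmt]
  by_cases ht : t ∈ Ioo 0 ((R + c) / 3)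
  · rw [indicator_of_mem ht, mul_assoc]
    congr 1
    have hw : 0 < min t c := lt_min ht.1 hc
    have e4 : ∫⁻ x : ℝ, G ![x, t - x] =
        ENNReal.ofReal (min t c) * ∫⁻ σ : ℝ, G ![min t c * σ, t - min t c * σ] := by
      have h2 := Real.map_volume_mul_left (a := min t c) hw.ne'
      have h3 := lintegral_map (μ := volume) hmt (measurable_const_mul (min t c))
      rw [h2, lintegral_smul_measure] at h3
      rw [← h3, smul_eq_mul, ← mul_assoc, ← ENNReal.ofReal_mul hw.le, abs_of_pos (inv_pos.2 hw),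
        mul_inv_cancel₀ hw.ne', ENNReal.ofReal_one, one_mul]
    rw [e4]
    congr 1
    unfold Asl
    rw [← lintegral_indicator measurableSet_Ioo]
    refine lintegral_congr fun σ => ?_
    by_cases hσ : σ ∈ Ioo (0 : ℝ) 1
    · rw [indicator_of_mem hσ]
      exact hGe _ (pt_mem hc ht hσ)
    · rw [indicator_of_notMem hσ]
      by_contra h0
      have h5 := hGsup _ h0
      have h6 : 0 < min t c * σ := h5.1
      have h7 : 0 < t - min t c * σ := h5.2.1
      have h8 : min t c * σ < c := h5.2.2.1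
      have h9 : 0 < σ := (mul_pos_iff_of_pos_left hw).1 h6
      have h10 : σ < 1 := by
        by_contra h11
        push Not at h11
        have h12 : min t c ≤ min t c * σ := le_mul_of_one_le_right hw.le h11
        rcases min_choice t c with h13 | h13
        · rw [h13] at h12 h7
          linarith
        · rw [h13] at h12 h8
          linarith
      exact hσ ⟨h9, h10⟩
  · rw [indicator_of_notMem ht]
    have : ∀ x : ℝ, G ![x, t - x] = 0 := by
      intro x
      by_contra h0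
      have h5 := hGsup _ h0
      have h6 : 0 < x := h5.1
      have h7 : 0 < t - x := h5.2.1
      have h8 : x + (t - x) < (R + c) / 3 := h5.2.2.2
      exact ht ⟨by linarith, by linarith⟩
    simp_rw [this]
    simp

/-- the capacity of the model -/
noncomputable def C3 (R c t : ℝ) : ℝ := min (3 * R + c - 7 * t) (3 * R + 3 * c - 9 * t)

theorem C3_lo {t : ℝ} (h : t ≤ c) : C3 R c t = 3 * R + c - 7 * t := min_eq_left (by linarith)

theorem C3_hi {t : ℝ} (h : c ≤ t) : C3 R c t = 3 * R + 3 * c - 9 * t := min_eq_right (by linarith)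

theorem C3_nonneg (hc : 0 < c) (h2 : 2 * c ≤ R) {t : ℝ} (ht : t ∈ Ioo 0 ((R + c) / 3)) :
    0 ≤ C3 R c t := by
  refine le_min ?_ ?_
  · linarith [ht.2, ht.1]
  · linarith [ht.2]

/-- `∫ p = P b - P a` -/
theorem lint_ftc {a b : ℝ} (hab : a ≤ b) {P p : ℝ → ℝ} (hP : ∀ t, HasDerivAt P (p t) t)
    (hp : Continuous p) (h0 : ∀ t ∈ Ioo a b, 0 ≤ p t) :
    ∫⁻ t in Ioo a b, ENNReal.ofReal (p t) = ENNReal.ofReal (P b - P a) := by
  rw [← intervalIntegral.integral_eq_sub_of_hasDerivAt (fun t _ => hP t)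
    (hp.intervalIntegrable a b), intervalIntegral.integral_of_le hab, integral_Ioc_eq_integral_Ioo,
    ofReal_integral_eq_lintegral_ofReal]
  · exact (hp.integrableOn_Icc (a := a) (b := b)).mono_set Ioo_subset_Icc_self
  · filter_upwards [ae_restrict_mem measurableSet_Ioo] with t ht
    exact h0 t ht

theorem split_ioo {s T : ℝ} (hs : s ∈ Icc 0 T) (F : ℝ → ℝ≥0∞) :
    ∫⁻ t in Ioo 0 T, F t = (∫⁻ t in Ioo 0 s, F t) + ∫⁻ t in Ioo s T, F t := by
  have hdisj : Disjoint (Ioo 0 s) (Ioo s T) := by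
    rw [Set.disjoint_left]
    intro x h1 h2
    exact absurd h1.2 (not_lt.2 h2.1.le)
  have hun : (Ioo 0 T : Set ℝ) =ᵐ[volume] (Ioo 0 s ∪ Ioo s T : Set ℝ) := by
    have h0 : ∀ᵐ t : ℝ, t ≠ s := by
      rw [ae_iff]
      simp
    filter_upwards [h0] with t ht
    refine propext ⟨fun h => ?_, fun h => ?_⟩
    · rcases lt_or_gt_of_ne ht with h1 | h1
      · exact Or.inl ⟨h.1, h1⟩
      · exact Or.inr ⟨h1, h.2⟩
    · rcases h with h | h
      · exact ⟨h.1, h.2.trans_le hs.2⟩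
      · exact ⟨hs.1.trans_lt h.1, h.2⟩
  rw [setLIntegral_congr hun, lintegral_union measurableSet_Ioo hdisj]

theorem massC (hc : 0 < c) (h2 : 2 * c ≤ R) :
    ∫⁻ t in Ioo 0 ((R + c) / 3), ENNReal.ofReal (C3 R c t) * ENNReal.ofReal (min t c) =
      ENNReal.ofReal ((R ^ 3 - (R - c) ^ 3) / 6) := by
  have hcT : c ≤ (R + c) / 3 := by linarith
  rw [split_ioo ⟨hc.le, hcT⟩]
  have e1 : ∫⁻ t in Ioo 0 c, ENNReal.ofReal (C3 R c t) * ENNReal.ofReal (min t c) =
      ENNReal.ofReal ((3 * R + c) * c ^ 2 / 2 - 7 * c ^ 3 / 3) := by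
    have h3 := lint_ftc (a := 0) (b := c) hc.le
      (P := fun t => (3 * R + c) * t ^ 2 / 2 - 7 * t ^ 3 / 3)
      (p := fun t => (3 * R + c - 7 * t) * t) (by
        intro t
        have h4 := (((hasDerivAt_pow 2 t).const_mul (3 * R + c)).div_const 2).sub
          (((hasDerivAt_pow 3 t).const_mul 7).div_const 3)
        refine h4.congr_deriv ?_
        push_cast
        ring) (by fun_prop) (by
        intro t ht
        refine mul_nonneg ?_ ht.1.le
        linarith [ht.2])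
    have h5 : (fun t : ℝ => (3 * R + c) * t ^ 2 / 2 - 7 * t ^ 3 / 3) c -
        (fun t : ℝ => (3 * R + c) * t ^ 2 / 2 - 7 * t ^ 3 / 3) 0 =
        (3 * R + c) * c ^ 2 / 2 - 7 * c ^ 3 / 3 := by
      simp
    rw [h5] at h3
    rw [← h3]
    refine setLIntegral_congr_fun measurableSet_Ioo fun t ht => ?_
    show ENNReal.ofReal (C3 R c t) * ENNReal.ofReal (min t c) =
      ENNReal.ofReal ((3 * R + c - 7 * t) * t)
    rw [C3_lo ht.2.le, min_eq_left ht.2.le, ← ENNReal.ofReal_mul (by linarith [ht.2])]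
  have e2 : ∫⁻ t in Ioo c ((R + c) / 3), ENNReal.ofReal (C3 R c t) * ENNReal.ofReal (min t c) =
      ENNReal.ofReal (c * (R - 2 * c) ^ 2 / 2) := by
    have h3 := lint_ftc (a := c) (b := (R + c) / 3) hcT
      (P := fun t => (3 * R + 3 * c) * c * t - 9 * c * t ^ 2 / 2)
      (p := fun t => (3 * R + 3 * c - 9 * t) * c) (by
        intro t
        have h4 := ((hasDerivAt_id t).const_mul ((3 * R + 3 * c) * c)).sub
          (((hasDerivAt_pow 2 t).const_mul (9 * c)).div_const 2)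
        refine h4.congr_deriv ?_
        push_cast
        ring) (by fun_prop) (by
        intro t ht
        refine mul_nonneg ?_ hc.le
        linarith [ht.2])
    have h5 : (fun t : ℝ => (3 * R + 3 * c) * c * t - 9 * c * t ^ 2 / 2) ((R + c) / 3) -
        (fun t : ℝ => (3 * R + 3 * c) * c * t - 9 * c * t ^ 2 / 2) c =
        c * (R - 2 * c) ^ 2 / 2 := by
      simp only
      ring
    rw [h5] at h3
    rw [← h3]
    refine setLIntegral_congr_fun measurableSet_Ioo fun t ht => ?_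
    show ENNReal.ofReal (C3 R c t) * ENNReal.ofReal (min t c) =
      ENNReal.ofReal ((3 * R + 3 * c - 9 * t) * c)
    rw [C3_hi ht.1.le, min_eq_right ht.1.le, ← ENNReal.ofReal_mul (by linarith [ht.2])]
  rw [e1, e2, ← ENNReal.ofReal_add]
  · congr 1
    ring
  · have : 0 ≤ c ^ 2 * ((3 * R + c) / 2 - 7 * c / 3) := by
      refine mul_nonneg (sq_nonneg c) ?_
      linarith
    linarith [this]
  · positivity

theorem massb (hc : 0 < c) (h2 : 2 * c ≤ R) {r : ℝ} (hr : 0 < r) (hrc : r ≤ c) :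
    ∫⁻ t in Ioo 0 ((R + c) / 3), ENNReal.ofReal (r - t) * ENNReal.ofReal (min t c) =
      ENNReal.ofReal (r ^ 3 / 6) := by
  have hcT : r ≤ (R + c) / 3 := by linarith
  rw [split_ioo ⟨hr.le, hcT⟩]
  have e2 : ∫⁻ t in Ioo r ((R + c) / 3), ENNReal.ofReal (r - t) * ENNReal.ofReal (min t c) = 0 := by
    rw [setLIntegral_congr_fun (g := fun _ => 0) measurableSet_Ioo]
    · simp
    · intro t ht
      simp only
      rw [ENNReal.ofReal_of_nonpos (by linarith [ht.1] : r - t ≤ 0), zero_mul]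
  rw [e2, add_zero]
  have h3 := lint_ftc (a := 0) (b := r) hr.le
    (P := fun t => r * t ^ 2 / 2 - t ^ 3 / 3)
    (p := fun t => (r - t) * t) (by
      intro t
      have h4 := (((hasDerivAt_pow 2 t).const_mul r).div_const 2).sub
        ((hasDerivAt_pow 3 t).div_const 3)
      refine h4.congr_deriv ?_
      push_cast
      ring) (by fun_prop) (by
      intro t ht
      exact mul_nonneg (by linarith [ht.2]) ht.1.le)
  have h5 : (fun t : ℝ => r * t ^ 2 / 2 - t ^ 3 / 3) r -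
      (fun t : ℝ => r * t ^ 2 / 2 - t ^ 3 / 3) 0 = r ^ 3 / 6 := by
    simp only
    ring
  rw [h5] at h3
  rw [← h3]
  refine setLIntegral_congr_fun measurableSet_Ioo fun t ht => ?_
  show ENNReal.ofReal (r - t) * ENNReal.ofReal (min t c) = ENNReal.ofReal ((r - t) * t)
  rw [min_eq_left (ht.2.le.trans hrc), ← ENNReal.ofReal_mul (by linarith [ht.2])]

/-- the crossing point -/
theorem crossing (hc : 0 < c) (h2 : 2 * c ≤ R) {r : ℝ} (hr : 0 < r) (hrc : r ≤ c) {K : ℝ}
    (hK : K = (R ^ 3 - (R - c) ^ 3) / r ^ 3) :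
    ∃ s ∈ Icc 0 r, (∀ t ∈ Ioo 0 s, 3 * R + c - 7 * t ≤ K * (r - t)) ∧
      ∀ t ∈ Ioo s r, K * (r - t) ≤ 3 * R + c - 7 * t := by
  have hα : 3 * R + c ≤ K * r := by
    have h3 : K * r = (R ^ 3 - (R - c) ^ 3) / r ^ 2 := by
      rw [hK]; field_simp
    rw [h3, le_div_iff₀ (by positivity)]
    have h4 : r ^ 2 ≤ c ^ 2 := pow_le_pow_left₀ hr.le hrc 2
    have h5 : (3 * R + c) * r ^ 2 ≤ (3 * R + c) * c ^ 2 :=
      mul_le_mul_of_nonneg_left h4 (by linarith)
    have h6 : 0 ≤ 3 * R * c * (R - 2 * c) := by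
      refine mul_nonneg ?_ (by linarith)
      have : 0 < R := by linarith
      positivity
    nlinarith
  have h7 : 7 * r ≤ 3 * R + c := by linarith
  have hβ : 0 ≤ K - 7 := by
    by_contra h8
    push Not at h8
    have : (K - 7) * r < 0 := mul_neg_of_neg_of_pos h8 hr
    nlinarith
  rcases hβ.eq_or_lt with h8 | h8
  · have hK7 : K = 7 := by linarith
    refine ⟨0, ⟨le_rfl, hr.le⟩, fun t ht => absurd ht.1 (not_lt.2 ht.2.le), fun t ht => ?_⟩
    rw [hK7] at hα ⊢
    linarith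
  · refine ⟨(K * r - 3 * R - c) / (K - 7), ⟨div_nonneg (by linarith) h8.le, ?_⟩, ?_, ?_⟩
    · rw [div_le_iff₀ h8]
      nlinarith
    · intro t ht
      have := ht.2
      rw [lt_div_iff₀ h8] at this
      nlinarith
    · intro t ht
      have := ht.1
      rw [div_lt_iff₀ h8] at this
      nlinarith

theorem ball_le3 (hc : 0 < c) (h2 : 2 * c ≤ R) {r : ℝ} (hr : 0 < r) (hrc : r ≤ c)
    (h : (Fin 2 → ℝ) → ℝ) (hm : Measurable ((Om3 R c).indicator h))
    (hanti : ∀ u ∈ Om3 R c, ∀ v ∈ Om3 R c, u ≤ v → h v ≤ h u) :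
    ∫⁻ u in Om3 R c, ENNReal.ofReal (h u) * ENNReal.ofReal (C3 R c (u 0 + u 1)) ≤
      ENNReal.ofReal ((R ^ 3 - (R - c) ^ 3) / r ^ 3) *
        ∫⁻ u in Om3 R c, ENNReal.ofReal (h u) * ENNReal.ofReal (r - (u 0 + u 1)) := by
  set K : ℝ := (R ^ 3 - (R - c) ^ 3) / r ^ 3 with hK
  have hR : 0 < R := by linarith
  have hRc : 0 ≤ R ^ 3 - (R - c) ^ 3 :=
    sub_nonneg.2 (pow_le_pow_left₀ (by linarith) (by linarith) 3)
  have hK0 : 0 ≤ K := div_nonneg hRc (by positivity)
  obtain ⟨s, hs, hs1, hs2⟩ := crossing hc h2 hr hrc hK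
  have hCm : Measurable fun t : ℝ => ENNReal.ofReal (C3 R c t) := by
    unfold C3
    exact Measurable.ennreal_ofReal (by fun_prop)
  have hrm : Measurable fun t : ℝ => ENNReal.ofReal (r - t) := by fun_prop
  have hA := Asl_anti (R := R) hc hanti
  have hAm : AEMeasurable (Asl c h) (volume.restrict (Ioo 0 ((R + c) / 3))) :=
    aemeasurable_restrict_of_antitoneOn measurableSet_Ioo hA
  rw [model3 hc h hm (fun t => ENNReal.ofReal (C3 R c t)) hCm,
    model3 hc h hm (fun t => ENNReal.ofReal (r - t)) hrm]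
  have hrw : Measurable fun t : ℝ => ENNReal.ofReal (r - t) * ENNReal.ofReal (min t c) := by
    fun_prop
  have e1 : ENNReal.ofReal K * ∫⁻ t in Ioo 0 ((R + c) / 3),
      (ENNReal.ofReal (r - t) * ENNReal.ofReal (min t c)) * Asl c h t =
      ∫⁻ t in Ioo 0 ((R + c) / 3),
        (ENNReal.ofReal K * (ENNReal.ofReal (r - t) * ENNReal.ofReal (min t c))) * Asl c h t := by
    have hm1 : AEMeasurable (fun t => (ENNReal.ofReal (r - t) * ENNReal.ofReal (min t c)) *
        Asl c h t) (volume.restrict (Ioo 0 ((R + c) / 3))) := hrw.aemeasurable.mul hAm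
    rw [← lintegral_const_mul'' _ hm1]
    refine lintegral_congr fun t => ?_
    ring
  have e2 : ∫⁻ t in Ioo 0 ((R + c) / 3),
      ENNReal.ofReal K * (ENNReal.ofReal (r - t) * ENNReal.ofReal (min t c)) =
      ENNReal.ofReal ((R ^ 3 - (R - c) ^ 3) / 6) := by
    rw [lintegral_const_mul _ hrw, massb hc h2 hr hrc, ← ENNReal.ofReal_mul hK0]
    congr 1
    rw [hK]
    field_simp
  rw [e1]
  have hcT : c ≤ (R + c) / 3 := by linarith
  obtain ⟨As, hA1, hA2⟩ : ∃ As : ℝ≥0∞, (∀ t ∈ Ioo 0 s, As ≤ Asl c h t) ∧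
      ∀ t ∈ Ioo s ((R + c) / 3), Asl c h t ≤ As := by
    rcases lt_or_ge s ((R + c) / 3) with hsT | hsT
    · rcases hs.1.eq_or_lt with hs0 | hs0
      · refine ⟨⊤, fun t ht => ?_, fun t ht => le_top⟩
        rw [← hs0] at ht
        exact absurd ht.1 (not_lt.2 ht.2.le)
      · exact ⟨Asl c h s, fun t ht => hA ⟨ht.1, ht.2.trans hsT⟩ ⟨hs0, hsT⟩ ht.2.le,
          fun t ht => hA ⟨hs0, hsT⟩ ⟨hs0.trans ht.1, ht.2⟩ ht.1.le⟩
    · exact ⟨0, fun t ht => bot_le, fun t ht => absurd (ht.1.trans ht.2) (not_lt.2 hsT)⟩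
  refine cross (s := s) (hCm.mul (by fun_prop)) (hrw.const_mul _) hAm
    ⟨hs.1, hs.2.trans (hrc.trans hcT)⟩ ?_ ?_ ((massC hc h2).trans e2.symm)
    (by rw [e2]; exact ENNReal.ofReal_ne_top) As hA1 hA2
  · intro t ht
    have htr : t < r := ht.2.trans_le hs.2
    rw [← mul_assoc, ← ENNReal.ofReal_mul hK0]
    refine mul_le_mul_left (ENNReal.ofReal_le_ofReal ?_) _
    rw [C3_lo (htr.le.trans hrc)]
    exact hs1 t ht
  · intro t ht
    rw [← mul_assoc, ← ENNReal.ofReal_mul hK0]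
    refine mul_le_mul_left ?_ _
    rcases lt_or_ge t r with htr | htr
    · refine ENNReal.ofReal_le_ofReal ?_
      rw [C3_lo (htr.le.trans hrc)]
      exact hs2 t ⟨ht.1, htr⟩
    · rw [ENNReal.ofReal_of_nonpos (mul_nonpos_of_nonneg_of_nonpos hK0 (by linarith))]
      exact bot_le

/-- the masses -/
theorem ball_one3 (hc : 0 < c) (h2 : 2 * c ≤ R) {r : ℝ} (hr : 0 < r) (hrc : r ≤ c) :
    ∫⁻ u in Om3 R c, ENNReal.ofReal (C3 R c (u 0 + u 1)) =
      ENNReal.ofReal ((R ^ 3 - (R - c) ^ 3) / r ^ 3) *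
        ∫⁻ u in Om3 R c, ENNReal.ofReal (r - (u 0 + u 1)) := by
  have hR : 0 < R := by linarith
  have hRc : 0 ≤ R ^ 3 - (R - c) ^ 3 :=
    sub_nonneg.2 (pow_le_pow_left₀ (by linarith) (by linarith) 3)
  have hm : Measurable ((Om3 R c).indicator fun _ : Fin 2 → ℝ => (1 : ℝ)) :=
    measurable_const.indicator Om3_meas
  have hCm : Measurable fun t : ℝ => ENNReal.ofReal (C3 R c t) := by
    unfold C3
    exact Measurable.ennreal_ofReal (by fun_prop)
  have hrm : Measurable fun t : ℝ => ENNReal.ofReal (r - t) := by fun_prop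
  have hA : ∀ t, Asl c (fun _ => 1) t = 1 := by
    intro t
    unfold Asl
    simp
  have e1 := model3 hc (fun _ => 1) hm (fun t => ENNReal.ofReal (C3 R c t)) hCm
  have e2 := model3 hc (fun _ => 1) hm (fun t => ENNReal.ofReal (r - t)) hrm
  simp only [hA, ENNReal.ofReal_one, one_mul, mul_one] at e1 e2
  rw [e1, e2, massC hc h2, massb hc h2 hr hrc, ← ENNReal.ofReal_mul (by positivity)]
  congr 1
  field_simp

/-- DOMINATION for the model of helper889 (`n = 3`, big ball `R - c ≥ R / 2`, the others `≤ c`). -/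
theorem dom3 (hc : 0 < c) (h2 : 2 * c ≤ R) (rs : List ℝ) (hrs : ∀ r ∈ rs, 0 < r ∧ r ≤ c) {κ : ℝ}
    (hκ : κ * (R ^ 3 - (R - c) ^ 3) = (rs.map fun r => r ^ 3).sum)
    {g : (Fin 2 → ℝ) → ℝ} {M : ℝ} (hM : ∀ u ∈ Om3c R c, |g u| ≤ M)
    (hcont : ContinuousOn g (Om3c R c))
    (hanti : ∀ u ∈ Om3c R c, ∀ v ∈ Om3c R c, u ≤ v → g v ≤ g u) :
    ∫ u in Om3c R c, g u * (κ * C3 R c (u 0 + u 1) -
      (rs.map fun r => max (r - (u 0 + u 1)) 0).sum) ≤ 0 := by
  have hsub : Om3 R c ⊆ Om3c R c := fun u hu => ⟨hu.1.le, hu.2.1.le, hu.2.2⟩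
  have hae : (Om3c R c : Set (Fin 2 → ℝ)) =ᵐ[volume] Om3 R c := by
    filter_upwards [ae_pos (d := 2)] with u hu
    refine propext ⟨fun h => ⟨lt_of_le_of_ne h.1 (hu 0).symm, lt_of_le_of_ne h.2.1 (hu 1).symm,
      h.2.2⟩, fun h => hsub h⟩
  rw [setIntegral_congr_set hae]
  have hR : 0 < R := by linarith
  have hRc : 0 < R ^ 3 - (R - c) ^ 3 :=
    sub_pos.2 (pow_lt_pow_left₀ (by linarith) (by linarith) (by norm_num))
  have hgm := indicator_meas (Om3_meas (R := R) (c := c)) (hcont.mono hsub)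
  have hfin : volume (Om3 R c) ≠ ⊤ :=
    fin_vol (B := R) fun u hu a => by
      obtain ⟨h0, h1, h3, h4⟩ := hu
      fin_cases a
      · exact ⟨h0.le, by show u 0 ≤ R; linarith⟩
      · exact ⟨h1.le, by show u 1 ≤ R; linarith⟩
  have : IsFiniteMeasure (volume.restrict (Om3 R c)) := ⟨by
    rw [Measure.restrict_apply_univ]; exact lt_top_iff_ne_top.2 hfin⟩
  have hgae : AEStronglyMeasurable g (volume.restrict (Om3 R c)) := by
    refine (hgm.aestronglyMeasurable (μ := volume.restrict (Om3 R c))).congr ?_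
    filter_upwards [ae_restrict_mem Om3_meas] with u hu
    rw [indicator_of_mem hu]
  have hCm : Measurable fun u : Fin 2 → ℝ => C3 R c (u 0 + u 1) := by
    unfold C3
    fun_prop
  have hs0 : ∀ u ∈ Om3 R c, u 0 + u 1 ∈ Ioo 0 ((R + c) / 3) := fun u hu =>
    ⟨add_pos hu.1 hu.2.1, hu.2.2.2⟩
  have hC0 : ∀ u ∈ Om3 R c, 0 ≤ C3 R c (u 0 + u 1) := fun u hu => C3_nonneg hc h2 (hs0 u hu)
  have hC1 : ∀ u ∈ Om3 R c, C3 R c (u 0 + u 1) ≤ 4 * R := fun u hu =>
    (min_le_left _ _).trans (by linarith [(hs0 u hu).1])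
  have iC : IntegrableOn (fun u => g u * C3 R c (u 0 + u 1)) (Om3 R c) := by
    have h1 : Integrable (fun u : Fin 2 → ℝ => C3 R c (u 0 + u 1)) (volume.restrict (Om3 R c)) := by
      refine Integrable.of_bound hCm.aestronglyMeasurable (4 * R) ?_
      filter_upwards [ae_restrict_mem Om3_meas] with u hu
      rw [Real.norm_eq_abs, abs_of_nonneg (hC0 u hu)]
      exact hC1 u hu
    refine h1.bdd_mul hgae (c := M) ?_
    filter_upwards [ae_restrict_mem Om3_meas] with u hu
    exact hM u (hsub hu)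
  have key := list_sum (Ω := Om3 R c) (g := g) (C := fun u => C3 R c (u 0 + u 1))
    (t := fun r u => max (r - (u 0 + u 1)) 0)
    (a := fun r => r ^ 3 / (R ^ 3 - (R - c) ^ 3)) iC rs (by
      intro r hr
      obtain ⟨hr0, hr2⟩ := hrs r hr
      have htm : Measurable fun u : Fin 2 → ℝ => r - (u 0 + u 1) := by fun_prop
      refine ⟨?_, ?_⟩
      · have h1 : Integrable (fun u : Fin 2 → ℝ => max (r - (u 0 + u 1)) 0)
            (volume.restrict (Om3 R c)) := by
          refine Integrable.of_bound (htm.max measurable_const).aestronglyMeasurable r ?_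
          filter_upwards [ae_restrict_mem Om3_meas] with u hu
          rw [Real.norm_eq_abs, abs_of_nonneg (le_max_right _ _)]
          exact max_le (by linarith [(hs0 u hu).1]) hr0.le
        refine h1.bdd_mul hgae (c := M) ?_
        filter_upwards [ae_restrict_mem Om3_meas] with u hu
        exact hM u (hsub hu)
      · have hK : 0 < (R ^ 3 - (R - c) ^ 3) / r ^ 3 := by positivity
        have h3 := real_of_lint (Ω := Om3 R c) Om3_meas hfin hCm htm (B := 4 * R) (by
            intro u hu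
            rw [abs_of_nonneg (hC0 u hu)]
            exact hC1 u hu)
          (by
            intro u hu
            have := hs0 u hu
            rw [abs_le]
            constructor <;> linarith [this.1, this.2])
          hC0 hK.le
          (fun h hm ha => ball_le3 hc h2 hr0 hr2 h hm ha)
          (ball_one3 hc h2 hr0 hr2) g (fun u hu => hM u (hsub hu)) hgm
          (fun u hu v hv huv => hanti u (hsub hu) v (hsub hv) huv)
        have h4 : r ^ 3 / (R ^ 3 - (R - c) ^ 3) * ((R ^ 3 - (R - c) ^ 3) / r ^ 3) = 1 := by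
          field_simp
        have h5 := mul_le_mul_of_nonneg_left h3
          (by positivity : 0 ≤ r ^ 3 / (R ^ 3 - (R - c) ^ 3))
        rw [← mul_assoc, h4, one_mul] at h5
        exact h5)
  have hκ' : (rs.map fun r => r ^ 3 / (R ^ 3 - (R - c) ^ 3)).sum = κ := by
    have h1 : (rs.map fun r => r ^ 3 / (R ^ 3 - (R - c) ^ 3)) =
        rs.map fun r => (1 / (R ^ 3 - (R - c) ^ 3)) * r ^ 3 := by
      refine List.map_congr_left fun r _ => ?_
      ring
    rw [h1, List.sum_map_mul_left, div_mul_eq_mul_div, one_mul, div_eq_iff hRc.ne', hκ]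
  rw [hκ'] at key
  exact key.2

end model

end Vale.Agent.P209.H519
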