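import Vale.Agent.P209.H710.Nec.Defs
import Mathlib.Algebra.Order.Chebyshev
import Mathlib.Analysis.SpecialFunctions.Trigonometric.Bounds

/-! # P209, necessity: row D1 (helper519).  The generating function of one ball is positive on a
large subspace for small time. -/

set_option linter.all false

open Vale.Agent.P209.H710.Nec

namespace Vale.Agent.P209.H519.Nec

variable {V : Type*} [NormedAddCommGroup V] [InnerProductSpace ℂ V]

/-- the subspace `(λ p, P, i P)` -/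
noncomputable def LL (M : ℕ) (p : V) : (ℂ × (Fin M → V)) →ₗ[ℝ] W V M where
  toFun q := (q.1 • p, q.2, fun k => (Complex.I : ℂ) • q.2 k)
  map_add' q r := by
    refine Prod.ext ?_ (Prod.ext ?_ ?_)
    · simp [add_smul]
    · simp
    · funext k
      simp
  map_smul' t q := by
    refine Prod.ext ?_ (Prod.ext ?_ ?_)
    · show (t • q.1) • p = t • q.1 • p
      exact smul_assoc t q.1 p
    · rfl
    · funext k
      show (Complex.I : ℂ) • (t • q.2 k) = t • ((Complex.I : ℂ) • q.2 k)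
      exact smul_comm _ _ _

theorem LL_inj (M : ℕ) {p : V} (hp : ‖p‖ = 1) : Function.Injective (LL M p) := by
  intro q r h
  have h1 : q.1 • p = r.1 • p := congrArg Prod.fst h
  have h2 : q.2 = r.2 := congrArg (fun x => x.2.1) h
  have hp0 : p ≠ 0 := by
    intro h0
    rw [h0, norm_zero] at hp
    norm_num at hp
  exact Prod.ext (smul_left_injective ℂ hp0 h1) h2

theorem om_I (v : V) : om v ((Complex.I : ℂ) • v) = ‖v‖ ^ 2 := by
  rw [om_apply, inner_smul_right, inner_self_eq_norm_sq_to_K]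
  simp [← Complex.ofReal_pow]

/-- the deviation of the midpoint -/
noncomputable def dev {M : ℕ} (P : Fin M → V) (j : ℕ) : V :=
  ∑ k : Fin M, (if j ≤ (k : ℕ) then P k else 0) +
    ∑ k : Fin M, (if j = (k : ℕ) + 1 then (Complex.I : ℂ) • P k else 0)

theorem mid_LL {M : ℕ} (p : V) (q : ℂ × (Fin M → V)) (j : ℕ) :
    mid (LL M p q) j = q.1 • p + dev q.2 j := by
  unfold mid dev LL
  simp only [LinearMap.coe_mk, AddHom.coe_mk, add_assoc]

theorem dev_le {M : ℕ} (P : Fin M → V) (j : ℕ) : ‖dev P j‖ ^ 2 ≤ 4 * M * ∑ k, ‖P k‖ ^ 2 := by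
  have h1 : ‖dev P j‖ ≤ 2 * ∑ k, ‖P k‖ := by
    unfold dev
    refine (norm_add_le _ _).trans ?_
    rw [two_mul]
    refine add_le_add ((norm_sum_le _ _).trans (Finset.sum_le_sum fun k _ => ?_))
      ((norm_sum_le _ _).trans (Finset.sum_le_sum fun k _ => ?_))
    · split_ifs
      · exact le_rfl
      · simp
    · split_ifs
      · simp [norm_smul]
      · simp
  have h2 : (∑ k, ‖P k‖) ^ 2 ≤ M * ∑ k, ‖P k‖ ^ 2 := by
    have := sq_sum_le_card_mul_sum_sq (s := (Finset.univ : Finset (Fin M))) (f := fun k => ‖P k‖)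
    simpa using this
  calc ‖dev P j‖ ^ 2 ≤ (2 * ∑ k, ‖P k‖) ^ 2 := pow_le_pow_left₀ (norm_nonneg _) h1 2
    _ = 4 * (∑ k, ‖P k‖) ^ 2 := by ring
    _ ≤ 4 * (M * ∑ k, ‖P k‖ ^ 2) := by linarith
    _ = _ := by ring

/-- lower bound for one midpoint -/
theorem low {l : V →L[ℂ] ℂ} {Om : Set V} {c : ℝ} (A : BallHam l Om c) {c' C η : ℝ} (hη : 0 < η)
    (hc' : 0 ≤ c')
    (hC : ∀ z, Real.pi * c' * ‖z‖ ^ 2 - C * ‖z - (inner ℂ A.p z : ℂ) • A.p‖ ^ 2 ≤ A.G z)
    (lam : ℂ) (e : V) {D : ℝ} (hD : ‖e‖ ^ 2 ≤ D) :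
    Real.pi * c' * ((‖lam‖ ^ 2 - (1 + 1 / η) * D) / (1 + η)) - 4 * |C| * D ≤
      A.G (lam • A.p + e) := by
  have hp := A.norm_p
  have hpp : (inner ℂ A.p A.p : ℂ) = 1 := by
    rw [inner_self_eq_norm_sq_to_K, hp]
    simp
  have h1 : (lam • A.p + e) - (inner ℂ A.p (lam • A.p + e) : ℂ) • A.p =
      e - (inner ℂ A.p e : ℂ) • A.p := by
    rw [inner_add_right, inner_smul_right, hpp, mul_one, add_smul]
    abel
  have h2 : ‖e - (inner ℂ A.p e : ℂ) • A.p‖ ≤ 2 * ‖e‖ := by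
    refine (norm_sub_le _ _).trans ?_
    rw [norm_smul, hp, mul_one]
    have := norm_inner_le_norm (𝕜 := ℂ) A.p e
    rw [hp, one_mul] at this
    linarith
  have h3 : ‖e - (inner ℂ A.p e : ℂ) • A.p‖ ^ 2 ≤ 4 * D := by
    calc _ ≤ (2 * ‖e‖) ^ 2 := pow_le_pow_left₀ (norm_nonneg _) h2 2
      _ = 4 * ‖e‖ ^ 2 := by ring
      _ ≤ 4 * D := by linarith
  have h4 : C * ‖e - (inner ℂ A.p e : ℂ) • A.p‖ ^ 2 ≤ 4 * |C| * D := by
    calc _ ≤ |C| * ‖e - (inner ℂ A.p e : ℂ) • A.p‖ ^ 2 :=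
          mul_le_mul_of_nonneg_right (le_abs_self C) (sq_nonneg _)
      _ ≤ |C| * (4 * D) := mul_le_mul_of_nonneg_left h3 (abs_nonneg C)
      _ = _ := by ring
  have h5 : ‖lam‖ ≤ ‖lam • A.p + e‖ + ‖e‖ := by
    have := norm_sub_le (lam • A.p + e) e
    rw [add_sub_cancel_right, norm_smul, hp, mul_one] at this
    exact this
  have h6 : (‖lam‖ ^ 2 - (1 + 1 / η) * D) / (1 + η) ≤ ‖lam • A.p + e‖ ^ 2 := by
    rw [div_le_iff₀ (by linarith)]
    set x := ‖lam • A.p + e‖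
    set t := ‖e‖
    have hx : 0 ≤ x := norm_nonneg _
    have ht : 0 ≤ t := norm_nonneg _
    have g1 : ‖lam‖ ^ 2 ≤ (x + t) ^ 2 := pow_le_pow_left₀ (norm_nonneg _) h5 2
    have g2 : 2 * x * t ≤ η * x ^ 2 + 1 / η * t ^ 2 := by
      have : 0 ≤ (η * x - t) ^ 2 / η := by positivity
      have g3 : (η * x - t) ^ 2 / η = η * x ^ 2 + 1 / η * t ^ 2 - 2 * x * t := by
        field_simp
        ring
      linarith
    have g4 : (1 + 1 / η) * t ^ 2 ≤ (1 + 1 / η) * D :=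
      mul_le_mul_of_nonneg_left hD (by positivity)
    nlinarith
  have h7 := hC (lam • A.p + e)
  rw [h1] at h7
  have h8 : Real.pi * c' * ((‖lam‖ ^ 2 - (1 + 1 / η) * D) / (1 + η)) ≤
      Real.pi * c' * ‖lam • A.p + e‖ ^ 2 :=
    mul_le_mul_of_nonneg_left h6 (mul_nonneg Real.pi_pos.le hc')
  linarith

/-- upper bound for one midpoint -/
theorem upp {p : V} (hp : ‖p‖ = 1) {η : ℝ} (hη : 0 < η) (lam : ℂ) (e : V) {D : ℝ}
    (hD : ‖e‖ ^ 2 ≤ D) :
    ‖lam • p + e‖ ^ 2 ≤ (1 + η) * ‖lam‖ ^ 2 + (1 + 1 / η) * D := by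
  have h5 : ‖lam • p + e‖ ≤ ‖lam‖ + ‖e‖ := by
    have := norm_add_le (lam • p) e
    rwa [norm_smul, hp, mul_one] at this
  have g1 : ‖lam • p + e‖ ^ 2 ≤ (‖lam‖ + ‖e‖) ^ 2 := pow_le_pow_left₀ (norm_nonneg _) h5 2
  have g2 : 2 * ‖lam‖ * ‖e‖ ≤ η * ‖lam‖ ^ 2 + 1 / η * ‖e‖ ^ 2 := by
    have : 0 ≤ (η * ‖lam‖ - ‖e‖) ^ 2 / η := by positivity
    have g3 : (η * ‖lam‖ - ‖e‖) ^ 2 / η =
        η * ‖lam‖ ^ 2 + 1 / η * ‖e‖ ^ 2 - 2 * ‖lam‖ * ‖e‖ := by
      field_simp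
      ring
    linarith
  have g4 : (1 + 1 / η) * ‖e‖ ^ 2 ≤ (1 + 1 / η) * D :=
    mul_le_mul_of_nonneg_left hD (by positivity)
  nlinarith

theorem FF_eq {l : V →L[ℂ] ℂ} {Om : Set V} {c : ℝ} (A : BallHam l Om c) (N : ℕ) (τ κ : ℝ)
    (q : ℂ × (Fin (N + 1) → V)) :
    FF (stp N A.G τ κ) (LL (N + 1) A.p q) = 2 * ∑ k, ‖q.2 k‖ ^ 2 +
      (∑ j ∈ Finset.range N, τ / N * A.G (q.1 • A.p + dev q.2 j) +
        (-κ * ‖q.1 • A.p + dev q.2 N‖ ^ 2 + -κ * ‖q.1 • A.p + dev q.2 (N + 1)‖ ^ 2)) := by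
  unfold FF
  congr 1
  · congr 1
    refine Finset.sum_congr rfl fun k _ => ?_
    show om (q.2 k) ((Complex.I : ℂ) • q.2 k) = _
    rw [om_I]
  · rw [Finset.sum_range_succ, Finset.sum_range_succ, add_assoc]
    congr 1
    · refine Finset.sum_congr rfl fun j hj => ?_
      rw [mid_LL]
      simp [stp, Finset.mem_range.1 hj]
    · rw [mid_LL, mid_LL]
      simp [stp]

theorem tan_small {a a' : ℝ} (ha : 0 < a) (haa : a < a') :
    ∀ᶠ τ : ℝ in nhdsWithin 0 (Set.Ioi 0),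
      0 ≤ Real.tan (Real.pi * a * τ / 2) ∧ Real.tan (Real.pi * a * τ / 2) ≤ Real.pi * a' / 2 * τ := by
  have h1 : Filter.Tendsto (fun τ : ℝ => Real.cos (Real.pi * a * τ / 2))
      (nhdsWithin 0 (Set.Ioi 0)) (nhds (Real.cos (Real.pi * a * 0 / 2))) := by
    have : Continuous fun τ : ℝ => Real.cos (Real.pi * a * τ / 2) := by fun_prop
    exact (this.tendsto 0).mono_left nhdsWithin_le_nhds
  have h0 : Real.cos (Real.pi * a * 0 / 2) = 1 := by simp
  rw [h0] at h1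
  have h2 : a / a' < 1 := (div_lt_one (ha.trans haa)).2 haa
  have h3 : ∀ᶠ τ : ℝ in nhdsWithin 0 (Set.Ioi 0), τ < 1 / a := by
    have : ∀ᶠ τ : ℝ in nhds 0, τ < 1 / a := gt_mem_nhds (by positivity)
    exact this.filter_mono nhdsWithin_le_nhds
  filter_upwards [h1.eventually (lt_mem_nhds h2), h3, self_mem_nhdsWithin] with τ hτ hτ2 hτ0
  have hτ0 : 0 < τ := hτ0
  have ht0 : 0 < Real.pi * a * τ / 2 := by positivity
  have ht1 : Real.pi * a * τ / 2 < Real.pi / 2 := by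
    have : a * τ < 1 := by
      rw [lt_div_iff₀ ha] at hτ2
      linarith [mul_comm a τ]
    have := mul_lt_mul_of_pos_left this Real.pi_pos
    nlinarith
  have hcos : 0 < Real.cos (Real.pi * a * τ / 2) := (div_pos ha (ha.trans haa)).trans hτ
  refine ⟨(Real.tan_pos_of_pos_of_lt_pi_div_two ht0 ht1).le, ?_⟩
  rw [Real.tan_eq_sin_div_cos, div_le_iff₀ hcos]
  have h4 := Real.sin_le ht0.le
  have h5 : Real.pi * a' / 2 * τ * (a / a') ≤ Real.pi * a' / 2 * τ * Real.cos (Real.pi * a * τ / 2) :=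
    mul_le_mul_of_nonneg_left hτ.le (by
      have := ha.trans haa
      positivity)
  have h6 : Real.pi * a' / 2 * τ * (a / a') = Real.pi * a * τ / 2 := by
    have : a' ≠ 0 := (ha.trans haa).ne'
    field_simp
  linarith

universe u

theorem D1 : D1_statement.{u} := by
  intro V _ _ _ l Om c A a N ha hac hc1 hN
  set c' : ℝ := (a + c) / 2 with hc'
  set a' : ℝ := (a + c') / 2 with ha'
  have h1 : a < a' := by rw [ha', hc']; linarith
  have h2 : a' < c' := by rw [ha', hc']; linarith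
  have h3 : c' < c := by rw [hc']; linarith
  have ha'0 : 0 < a' := ha.trans h1
  have hc'0 : 0 < c' := ha'0.trans h2
  obtain ⟨C, hC⟩ := A.lower c' h3
  obtain ⟨η, hη1, hη⟩ : ∃ η : ℝ, a' * (1 + η) ^ 2 < c' ∧ 0 < η := by
    have g1 : Filter.Tendsto (fun η : ℝ => a' * (1 + η) ^ 2)
        (nhdsWithin 0 (Set.Ioi 0)) (nhds (a' * (1 + 0) ^ 2)) := by
      have : Continuous fun η : ℝ => a' * (1 + η) ^ 2 := by fun_prop
      exact (this.tendsto 0).mono_left nhdsWithin_le_nhds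
    have g2 := (g1.eventually (gt_mem_nhds (by linarith : a' * (1 + 0) ^ 2 < c'))).and
      self_mem_nhdsWithin
    exact g2.exists
  set K : ℝ := Real.pi * c' * ((1 + 1 / η) / (1 + η)) + 4 * |C| + Real.pi * a' * (1 + 1 / η) with hK
  have hK0 : 0 ≤ K := by positivity
  have hM0 : (0 : ℝ) ≤ 4 * ((N + 1 : ℕ) : ℝ) := by positivity
  obtain ⟨τ, hτ1, ⟨hκ0, hκ⟩, hτ2, hτ0⟩ : ∃ τ : ℝ, τ < 1 ∧
      (0 ≤ Real.tan (Real.pi * a * τ / 2) ∧
        Real.tan (Real.pi * a * τ / 2) ≤ Real.pi * a' / 2 * τ) ∧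
      τ * (4 * ((N + 1 : ℕ) : ℝ) * K) < 1 ∧ 0 < τ := by
    have g1 : ∀ᶠ τ : ℝ in nhdsWithin 0 (Set.Ioi 0), τ < 1 := by
      have : ∀ᶠ τ : ℝ in nhds 0, τ < 1 := gt_mem_nhds one_pos
      exact this.filter_mono nhdsWithin_le_nhds
    have g2 : Filter.Tendsto (fun τ : ℝ => τ * (4 * ((N + 1 : ℕ) : ℝ) * K))
        (nhdsWithin 0 (Set.Ioi 0)) (nhds (0 * (4 * ((N + 1 : ℕ) : ℝ) * K))) := by
      have : Continuous fun τ : ℝ => τ * (4 * ((N + 1 : ℕ) : ℝ) * K) := by fun_prop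
      exact (this.tendsto 0).mono_left nhdsWithin_le_nhds
    rw [zero_mul] at g2
    exact (g1.and ((tan_small ha h1).and
      ((g2.eventually (gt_mem_nhds one_pos)).and self_mem_nhdsWithin))).exists
  refine ⟨τ, hτ0, hτ1.le, LinearMap.range (LL (N + 1) A.p), ?_, ?_⟩
  · rw [LinearMap.finrank_range_of_inj (LL_inj (N + 1) A.norm_p), Module.finrank_prod,
      Complex.finrank_real_complex, Module.finrank_pi_fintype, Finset.sum_const, Finset.card_univ,
      Fintype.card_fin, smul_eq_mul]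
    ring
  · rintro x ⟨q, rfl⟩ hx
    rw [FF_eq]
    set κ := Real.tan (Real.pi * a * τ / 2) with hκdef
    set S : ℝ := ∑ k, ‖q.2 k‖ ^ 2 with hS
    have hS0 : 0 ≤ S := Finset.sum_nonneg fun k _ => sq_nonneg _
    set D : ℝ := 4 * ((N + 1 : ℕ) : ℝ) * S with hD
    have hD0 : 0 ≤ D := mul_nonneg hM0 hS0
    set y : ℝ := ‖q.1‖ ^ 2 with hy
    have hy0 : 0 ≤ y := sq_nonneg _
    have hdev : ∀ j, ‖dev q.2 j‖ ^ 2 ≤ D := fun j => dev_le q.2 j
    set B : ℝ := Real.pi * c' * ((y - (1 + 1 / η) * D) / (1 + η)) - 4 * |C| * D with hB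
    have hlow : ∀ j, B ≤ A.G (q.1 • A.p + dev q.2 j) := fun j =>
      low A hη hc'0.le hC q.1 (dev q.2 j) (hdev j)
    have hupp : ∀ j, ‖q.1 • A.p + dev q.2 j‖ ^ 2 ≤ (1 + η) * y + (1 + 1 / η) * D := fun j =>
      upp A.norm_p hη q.1 (dev q.2 j) (hdev j)
    have hN0 : (0 : ℝ) < N := by exact_mod_cast hN
    have s1 : τ * B ≤ ∑ j ∈ Finset.range N, τ / N * A.G (q.1 • A.p + dev q.2 j) := by
      calc τ * B = ∑ j ∈ Finset.range N, τ / N * B := by
            rw [Finset.sum_const, Finset.card_range, nsmul_eq_mul]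
            field_simp
        _ ≤ _ := Finset.sum_le_sum fun j _ =>
            mul_le_mul_of_nonneg_left (hlow j) (by positivity)
    have hU0 : 0 ≤ (1 + η) * y + (1 + 1 / η) * D := by positivity
    have s2 : ∀ j, -(Real.pi * a' / 2 * τ * ((1 + η) * y + (1 + 1 / η) * D)) ≤
        -κ * ‖q.1 • A.p + dev q.2 j‖ ^ 2 := by
      intro j
      have g1 : κ * ‖q.1 • A.p + dev q.2 j‖ ^ 2 ≤ κ * ((1 + η) * y + (1 + 1 / η) * D) :=
        mul_le_mul_of_nonneg_left (hupp j) hκ0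
      have g2 : κ * ((1 + η) * y + (1 + 1 / η) * D) ≤
          Real.pi * a' / 2 * τ * ((1 + η) * y + (1 + 1 / η) * D) :=
        mul_le_mul_of_nonneg_right hκ hU0
      linarith
    have s3 := s2 N
    have s4 := s2 (N + 1)
    -- the total
    set w : ℝ := Real.pi * (c' / (1 + η) - a' * (1 + η)) with hw
    have hw0 : 0 < w := by
      refine mul_pos Real.pi_pos ?_
      have : a' * (1 + η) < c' / (1 + η) := by
        rw [lt_div_iff₀ (by linarith)]
        nlinarith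
      linarith
    have e1 : τ * B + (-(Real.pi * a' / 2 * τ * ((1 + η) * y + (1 + 1 / η) * D)) +
        -(Real.pi * a' / 2 * τ * ((1 + η) * y + (1 + 1 / η) * D))) =
        τ * (w * y) - τ * K * D := by
      rw [hB, hw, hK]
      field_simp
      ring
    have e2 : τ * K * D = τ * (4 * ((N + 1 : ℕ) : ℝ) * K) * S := by
      rw [hD]; ring
    have e3 : τ * K * D ≤ S := by
      rw [e2]
      calc _ ≤ 1 * S := mul_le_mul_of_nonneg_right hτ2.le hS0
        _ = S := one_mul S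
    have hpos : 0 < y ∨ 0 < S := by
      by_contra hcon
      push Not at hcon
      have hy' : y = 0 := le_antisymm hcon.1 hy0
      have hS' : S = 0 := le_antisymm hcon.2 hS0
      apply hx
      have f1 : q.1 = 0 := by
        rw [hy] at hy'
        exact norm_eq_zero.1 (pow_eq_zero_iff (two_ne_zero) |>.1 hy')
      have f2 : q.2 = 0 := by
        rw [hS, Finset.sum_eq_zero_iff_of_nonneg (fun k _ => sq_nonneg _)] at hS'
        funext k
        exact norm_eq_zero.1 (pow_eq_zero_iff (two_ne_zero) |>.1 (hS' k (Finset.mem_univ k)))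
      have f3 : q = 0 := Prod.ext f1 f2
      rw [f3, map_zero]
    have e4 : 0 ≤ τ * (w * y) := by positivity
    have e5 : 0 < τ * (w * y) + S := by
      rcases hpos with h | h
      · have : 0 < τ * (w * y) := by positivity
        linarith
      · linarith
    linarith

end Vale.Agent.P209.H519.Nec
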