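import Vale.Agent.P209.H519.Dom3
import Vale.Agent.P209.H856.Shake5

/-! # P209 / Tetris: existence of the state for the concrete models ((S0), (S1), (S2) of note 8306,
and the model of helper889).  Owner: helper519. -/

set_option linter.all false

open MeasureTheory Set Function

namespace Vale.Agent.P209.H519

open H856 (tent tents psiL DomOK AntiDir Cls State exists_state)

/-! ## 1. Polyhedral domains -/

section poly

variable {d : ℕ} {ι : Type} [Fintype ι]

/-- `{u ≥ 0, A k · u < b k for all k}` -/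
def Poly (A : ι → Fin d → ℝ) (b : ι → ℝ) : Set (Fin d → ℝ) :=
  {u | (∀ a, 0 ≤ u a) ∧ ∀ k, ∑ a, A k a * u a < b k}

variable {A : ι → Fin d → ℝ} {b : ι → ℝ}

theorem sum_update (c u : Fin d → ℝ) (a : Fin d) (y : ℝ) :
    ∑ e, c e * update u a y e = (∑ e, c e * u e) + c a * (y - u a) := by
  have h1 : ∀ e, c e * update u a y e = c e * u e + if e = a then c a * (y - u a) else 0 := by
    intro e
    by_cases h : e = a
    · subst h
      simp only [update_self, if_true]
      ring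
    · simp [update_of_ne h, h]
  simp_rw [h1]
  rw [Finset.sum_add_distrib, Finset.sum_ite_eq' Finset.univ a]
  simp

theorem poly_rel : ∃ O : Set (Fin d → ℝ), IsOpen O ∧ Poly A b = O ∩ {u | ∀ a, 0 ≤ u a} := by
  refine ⟨⋂ k, {u | ∑ a, A k a * u a < b k}, isOpen_iInter_of_finite fun k =>
    isOpen_lt (by fun_prop) continuous_const, ?_⟩
  ext u
  simp only [Poly, mem_setOf_eq, mem_inter_iff, mem_iInter]
  tauto

theorem poly_dom (hA : ∀ k a, 0 ≤ A k a) (hb : ∀ k, 0 ≤ b k) (hpos : ∀ a, ∃ k, 0 < A k a) :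
    ∃ B κ, DomOK (Poly A b) B κ := by
  refine ⟨∑ k, ∑ a, b k / A k a, ∑ k, ∑ a, ∑ e, A k e / A k a, ?_⟩
  constructor
  · intro u hu v hv s t hs ht hst
    refine ⟨fun a => ?_, fun k => ?_⟩
    · show 0 ≤ s * u a + t * v a
      exact add_nonneg (mul_nonneg hs (hu.1 a)) (mul_nonneg ht (hv.1 a))
    · have e : ∑ a, A k a * (s • u + t • v) a = s * (∑ a, A k a * u a) +
          t * ∑ a, A k a * v a := by
        rw [Finset.mul_sum, Finset.mul_sum, ← Finset.sum_add_distrib]
        refine Finset.sum_congr rfl fun a _ => ?_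
        simp only [Pi.add_apply, Pi.smul_apply, smul_eq_mul]
        ring
      rw [e]
      have h1 := hu.2 k
      have h2 := hv.2 k
      rcases hs.eq_or_lt with h0 | h0
      · rw [← h0, zero_add] at hst
        rw [← h0, hst]
        linarith
      · have h3 : s * ∑ a, A k a * u a < s * b k := mul_lt_mul_of_pos_left h1 h0
        have h4 : t * ∑ a, A k a * v a ≤ t * b k := mul_le_mul_of_nonneg_left h2.le ht
        have h5 : b k = s * b k + t * b k := by rw [← add_mul, hst, one_mul]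
        linarith
  · exact fun u hu a => hu.1 a
  · intro u hu a
    obtain ⟨k, hk⟩ := hpos a
    have h1 : A k a * u a ≤ ∑ a, A k a * u a :=
      Finset.single_le_sum (f := fun a => A k a * u a)
        (fun a _ => mul_nonneg (hA k a) (hu.1 a)) (Finset.mem_univ a)
    have h2 : u a ≤ b k / A k a := by
      rw [le_div_iff₀ hk]
      linarith [hu.2 k, mul_comm (A k a) (u a)]
    have h3 : b k / A k a ≤ ∑ a, b k / A k a :=
      Finset.single_le_sum (f := fun a => b k / A k a)
        (fun a _ => div_nonneg (hb k) (hA k a)) (Finset.mem_univ a)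
    have h4 : ∑ a, b k / A k a ≤ ∑ k, ∑ a, b k / A k a :=
      Finset.single_le_sum (f := fun k => ∑ a, b k / A k a)
        (fun k _ => Finset.sum_nonneg fun a _ => div_nonneg (hb k) (hA k a)) (Finset.mem_univ k)
    linarith
  · intro u hu v hv hvu
    refine ⟨hv, fun k => lt_of_le_of_lt (Finset.sum_le_sum fun a _ => ?_) (hu.2 k)⟩
    exact mul_le_mul_of_nonneg_left (hvu a) (hA k a)
  · obtain ⟨O, hO, he⟩ := poly_rel (A := A) (b := b)
    rw [he]
    refine hO.measurableSet.inter ?_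
    have : {u : Fin d → ℝ | ∀ a, 0 ≤ u a} = ⋂ a, {u | 0 ≤ u a} := by ext; simp
    rw [this]
    exact MeasurableSet.iInter fun a => measurableSet_le measurable_const (measurable_pi_apply a)
  · exact Finset.sum_nonneg fun k _ => Finset.sum_nonneg fun a _ => Finset.sum_nonneg fun e _ =>
      div_nonneg (hA k e) (hA k a)
  · intro u hu a e hea h hh h0 y hy0 hy
    refine ⟨fun c => ?_, fun k => ?_⟩
    · by_cases hc : c = a
      · subst hc; simpa using hy0
      · have := h0.1 c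
        simpa [update_of_ne hc] using this
    · rw [sum_update, update_of_ne hea.symm, sum_update]
      rcases (hA k a).eq_or_lt with hk | hk
      · have h1 := h0.2 k
        rw [sum_update, sum_update] at h1
        rw [← hk, zero_mul, add_zero]
        rw [← hk, zero_mul, add_zero] at h1
        exact h1
      · have h1 := hu.2 k
        set κ := ∑ k, ∑ a, ∑ e, A k e / A k a with hκ
        have h2 : A k e / A k a ≤ κ := by
          have g1 : A k e / A k a ≤ ∑ e, A k e / A k a :=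
            Finset.single_le_sum (f := fun e => A k e / A k a)
              (fun e _ => div_nonneg (hA k e) (hA k a)) (Finset.mem_univ e)
          have g2 : ∑ e, A k e / A k a ≤ ∑ a, ∑ e, A k e / A k a :=
            Finset.single_le_sum (f := fun a => ∑ e, A k e / A k a)
              (fun a _ => Finset.sum_nonneg fun e _ => div_nonneg (hA k e) (hA k a))
              (Finset.mem_univ a)
          have g3 : ∑ a, ∑ e, A k e / A k a ≤ κ :=
            Finset.single_le_sum (f := fun k => ∑ a, ∑ e, A k e / A k a)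
              (fun k _ => Finset.sum_nonneg fun a _ => Finset.sum_nonneg fun e _ =>
                div_nonneg (hA k e) (hA k a)) (Finset.mem_univ k)
          linarith
        have h3 : A k e ≤ κ * A k a := (div_le_iff₀ hk).1 h2
        have h4 : A k e * h ≤ κ * A k a * h := mul_le_mul_of_nonneg_right h3 hh
        have h5 : A k a * (y - u a) ≤ A k a * (-(κ * h)) :=
          mul_le_mul_of_nonneg_left (by linarith) hk.le
        have h6 : A k e * (u e + h - u e) = A k e * h := by ring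
        rw [h6]
        nlinarith

theorem poly_room (hA : ∀ k a, 0 ≤ A k a) (hb : ∀ k, 0 < b k) (rs : List ℝ)
    (hrs : ∀ r ∈ rs, 0 < r ∧ ∀ k a, A k a * r < b k) :
    ∃ δ : ℝ, 0 < δ ∧ ∀ r ∈ rs, ∀ v : Fin d → ℝ, (∀ a, 0 ≤ v a) → ∑ a, v a ≤ r →
      (fun a => v a + δ) ∈ Poly A b := by
  have h1 : ∀ᶠ δ : ℝ in nhdsWithin 0 (Ioi 0), ∀ r ∈ rs, ∀ k a,
      A k a * r + δ * (1 + ∑ a, A k a) < b k := by
    have h2 : ∀ r ∈ rs.toFinset, ∀ᶠ δ : ℝ in nhdsWithin 0 (Ioi 0), ∀ k a,
        A k a * r + δ * (1 + ∑ a, A k a) < b k := by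
      intro r hr
      rw [Filter.eventually_all]
      intro k
      rw [Filter.eventually_all]
      intro a
      have h3 : Filter.Tendsto (fun δ : ℝ => A k a * r + δ * (1 + ∑ a, A k a))
          (nhdsWithin 0 (Ioi 0)) (nhds (A k a * r + 0 * (1 + ∑ a, A k a))) := by
        have : Continuous fun δ : ℝ => A k a * r + δ * (1 + ∑ a, A k a) := by fun_prop
        exact (this.tendsto 0).mono_left nhdsWithin_le_nhds
      rw [zero_mul, add_zero] at h3
      exact h3.eventually (gt_mem_nhds ((hrs r (List.mem_toFinset.1 hr)).2 k a))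
    have h4 := (Filter.eventually_all_finset rs.toFinset).2 h2
    filter_upwards [h4] with δ hδ r hr k a
    exact hδ r (List.mem_toFinset.2 hr) k a
  have h5 : ∀ᶠ δ : ℝ in nhdsWithin 0 (Ioi 0), ∀ k, δ * (1 + ∑ a, A k a) < b k := by
    rw [Filter.eventually_all]
    intro k
    have h3 : Filter.Tendsto (fun δ : ℝ => δ * (1 + ∑ a, A k a))
        (nhdsWithin 0 (Ioi 0)) (nhds (0 * (1 + ∑ a, A k a))) := by
      have : Continuous fun δ : ℝ => δ * (1 + ∑ a, A k a) := by fun_prop
      exact (this.tendsto 0).mono_left nhdsWithin_le_nhds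
    rw [zero_mul] at h3
    exact h3.eventually (gt_mem_nhds (hb k))
  obtain ⟨δ, h6, h7, h8⟩ := (h1.and (h5.and self_mem_nhdsWithin)).exists
  have hδ : 0 < δ := h8
  refine ⟨δ, hδ, fun r hr v hv hvr => ⟨fun a => add_nonneg (hv a) hδ.le, fun k => ?_⟩⟩
  have hr0 := (hrs r hr).1
  have e1 : ∑ a, A k a * (v a + δ) = (∑ a, A k a * v a) + δ * ∑ a, A k a := by
    rw [Finset.mul_sum, ← Finset.sum_add_distrib]
    refine Finset.sum_congr rfl fun a _ => by ring
  show ∑ a, A k a * (v a + δ) < b k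
  rw [e1]
  have e2 : (∑ a, A k a * v a) * r ≤ (b k - δ * (1 + ∑ a, A k a)) * r := by
    calc (∑ a, A k a * v a) * r = ∑ a, (A k a * r) * v a := by
          rw [Finset.sum_mul]
          refine Finset.sum_congr rfl fun a _ => by ring
      _ ≤ ∑ a, (b k - δ * (1 + ∑ a, A k a)) * v a := by
          refine Finset.sum_le_sum fun a _ => mul_le_mul_of_nonneg_right ?_ (hv a)
          linarith [h6 r hr k a]
      _ = (b k - δ * (1 + ∑ a, A k a)) * ∑ a, v a := by rw [Finset.mul_sum]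
      _ ≤ _ := mul_le_mul_of_nonneg_left hvr (by linarith [h7 k])
  have e3 : ∑ a, A k a * v a ≤ b k - δ * (1 + ∑ a, A k a) := le_of_mul_le_mul_right e2 hr0
  linarith

end poly

/-! ## 2. Affine capacities -/

section aff

variable {d : ℕ} {Ω : Set (Fin d → ℝ)} {B κ : ℝ}

theorem aff_state (hΩ : DomOK Ω B κ) (c : Fin d → ℝ) (hc : ∀ a, 0 ≤ c a) (t : ℝ) :
    ∃ Λ M, 0 ≤ Λ ∧ State Ω Λ M (fun u => t - ∑ a, c a * u a) := by
  have hs : ∀ a, c a ≤ ∑ a, c a := fun a =>
    Finset.single_le_sum (f := c) (fun a _ => hc a) (Finset.mem_univ a)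
  refine ⟨∑ a, c a, |t| + (∑ a, c a) * |B|, Finset.sum_nonneg fun a _ => hc a, ⟨?_, ?_⟩⟩
  · constructor
    · refine ⟨hΩ.conv, ?_⟩
      intro u _ v _ s r hs hr hsr
      simp only [smul_eq_mul, Pi.add_apply, Pi.smul_apply]
      have e : ∑ a, c a * (s * u a + r * v a) = s * (∑ a, c a * u a) + r * ∑ a, c a * v a := by
        rw [Finset.mul_sum, Finset.mul_sum, ← Finset.sum_add_distrib]
        refine Finset.sum_congr rfl fun a _ => by ring
      rw [e]
      have : t = s * t + r * t := by rw [← add_mul, hsr, one_mul]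
      linarith
    · intro u hu
      have h1 : |∑ a, c a * u a| ≤ (∑ a, c a) * |B| := by
        rw [Finset.sum_mul]
        refine (Finset.abs_sum_le_sum_abs _ _).trans (Finset.sum_le_sum fun a _ => ?_)
        rw [abs_mul, abs_of_nonneg (hc a)]
        refine mul_le_mul_of_nonneg_left ?_ (hc a)
        rw [abs_of_nonneg (hΩ.nonneg u hu a)]
        exact (hΩ.bdd u hu a).trans (le_abs_self B)
      exact (abs_sub _ _).trans (by linarith)
    · intro u _ e h hh _
      rw [sum_update]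
      have : 0 ≤ c e * (u e + h - u e) := mul_nonneg (hc e) (by linarith)
      linarith
    · intro u _ e h hh _
      rw [sum_update]
      have : c e * (u e + h - u e) ≤ (∑ a, c a) * h := by
        rw [add_sub_cancel_left]
        exact mul_le_mul_of_nonneg_right (hs e) hh
      linarith
  · intro e u _ h hh _
    show t - ∑ a, c a * update u e (u e + h) a ≤ t - ∑ a, c a * u a
    rw [sum_update]
    have : 0 ≤ c e * (u e + h - u e) := mul_nonneg (hc e) (by linarith)
    linarith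

theorem min_state {f g : (Fin d → ℝ) → ℝ} {Λ M Λ' M' : ℝ} (hf : State Ω Λ M f)
    (hg : State Ω Λ' M' g) : State Ω (max Λ Λ') (max M M') (fun u => min (f u) (g u)) := by
  have hf' := hf.mono (le_max_left Λ Λ') (le_max_left M M')
  have hg' := hg.mono (le_max_right Λ Λ') (le_max_right M M')
  refine ⟨⟨hf'.cls.conc.inf hg'.cls.conc, ?_, ?_, ?_⟩, ?_⟩
  · intro u hu
    have h1 := abs_le.1 (hf'.cls.bdd u hu)
    have h2 := abs_le.1 (hg'.cls.bdd u hu)
    exact abs_le.2 ⟨le_min h1.1 h2.1, (min_le_left _ _).trans h1.2⟩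
  · intro u hu b h hh hv
    have h1 := hf'.cls.up u hu b h hh hv
    have h2 := hg'.cls.up u hu b h hh hv
    show min _ _ ≤ min _ _ + h
    rw [← min_add_add_right]
    exact min_le_min h1 h2
  · intro u hu b h hh hv
    have h1 := hf'.cls.lo u hu b h hh hv
    have h2 := hg'.cls.lo u hu b h hh hv
    show min _ _ - _ ≤ min _ _
    rw [← min_sub_sub_right]
    exact min_le_min h1 h2
  · intro b u hu h hh hv
    exact min_le_min (hf'.anti b u hu h hh hv) (hg'.anti b u hu h hh hv)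

theorem tents_eq (rs : List ℝ) (u : Fin d → ℝ) :
    tents rs u = (rs.map fun r => max (r - ∑ a, u a) 0).sum := rfl

end aff

/-! ## 3. The models -/

section models

variable {d : ℕ}

theorem Omc_poly (c : Fin d → ℝ) (R : ℝ) :
    Omc c R = Poly (fun _ : Unit => c) (fun _ => R) := by
  ext u
  simp [Omc, Poly]

theorem Omi_poly (i : Fin d) (c : Fin d → ℝ) (R ρ : ℝ) :
    Omi i c R ρ = Poly (fun k : Bool => if k then c else Pi.single i 1)
      (fun k => if k then R else ρ) := by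
  ext u
  simp [Omi, Poly, Pi.single_apply]
  tauto

theorem Om3c_poly (R c : ℝ) :
    Om3c R c = Poly (fun k : Bool => if k then (fun _ : Fin 2 => 1) else Pi.single 0 1)
      (fun k => if k then (R + c) / 3 else c) := by
  ext u
  simp [Om3c, Poly, Pi.single_apply, Fin.forall_fin_two]
  tauto

/-- (S0), case (A) -/
theorem dom_A {c : Fin d → ℝ} (hc : ∀ a, 0 < c a) {R : ℝ} (hR : 0 < R) :
    (∃ B κ, DomOK (Omc c R) B κ) ∧
      ∃ O : Set (Fin d → ℝ), IsOpen O ∧ Omc c R = O ∩ {u | ∀ a, 0 ≤ u a} := by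
  rw [Omc_poly]
  exact ⟨poly_dom (fun _ a => (hc a).le) (fun _ => hR.le) (fun a => ⟨(), hc a⟩), poly_rel⟩

/-- (S0), case (B) -/
theorem dom_B (i : Fin d) {c : Fin d → ℝ} (hc : ∀ a, 0 < c a) {R ρ : ℝ} (hR : 0 < R)
    (hρ : 0 < ρ) :
    (∃ B κ, DomOK (Omi i c R ρ) B κ) ∧
      ∃ O : Set (Fin d → ℝ), IsOpen O ∧ Omi i c R ρ = O ∩ {u | ∀ a, 0 ≤ u a} := by
  rw [Omi_poly]
  refine ⟨poly_dom (fun k a => ?_) (fun k => ?_) (fun a => ⟨true, by simpa using hc a⟩), poly_rel⟩
  · cases k
    · by_cases h : a = i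
      · subst h; simp
      · simp [Pi.single_apply, h]
    · simpa using (hc a).le
  · cases k
    · simpa using hρ.le
    · simpa using hR.le

/-- (S0), the model of helper889 -/
theorem dom_M {R c : ℝ} (hR : 0 < R) (hc : 0 < c) :
    (∃ B κ, DomOK (Om3c R c) B κ) ∧
      ∃ O : Set (Fin 2 → ℝ), IsOpen O ∧ Om3c R c = O ∩ {u | ∀ a, 0 ≤ u a} := by
  rw [Om3c_poly]
  refine ⟨poly_dom (fun k a => ?_) (fun k => ?_) (fun a => ⟨true, by simp⟩), poly_rel⟩
  · cases k
    · by_cases h : a = 0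
      · subst h; simp
      · simp [Pi.single_apply, h]
    · simp
  · cases k
    · simpa using hc.le
    · simp only [if_true]
      linarith

theorem st_hyp {Ω : Set (Fin d → ℝ)} {B κ : ℝ} (hΩ : DomOK Ω B κ) {Λ M : ℝ}
    {g : (Fin d → ℝ) → ℝ} (hg : State Ω Λ M g) :
    (∀ u ∈ Ω, |g u| ≤ M) ∧ ContinuousOn g Ω ∧ ∀ u ∈ Ω, ∀ v ∈ Ω, u ≤ v → g v ≤ g u := by
  refine ⟨hg.cls.bdd, ?_, fun u hu v hv huv => ?_⟩
  · have := hg.mono (le_max_left Λ 0) (le_refl M)
    exact this.cls.continuousOn hΩ (le_max_right Λ 0)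
  · exact hg.antitone hΩ hv (hΩ.nonneg u hu) huv

/-- (S1) -/
theorem state_A {c : Fin d → ℝ} (hc : ∀ a, 0 < c a) {R : ℝ} (hR : 0 < R) (rs : List ℝ)
    (hrs : ∀ r ∈ rs, 0 < r ∧ ∀ a, c a * r < R) {κ : ℝ}
    (hκ : κ * R ^ (d + 1) = (∏ a, c a) * (rs.map fun r => r ^ (d + 1)).sum)
    {ε : ℝ} (hε : 0 < ε) :
    ∃ (Λ M : ℝ) (g : (Fin d → ℝ) → ℝ), 0 ≤ Λ ∧ State (Omc c R) Λ M g ∧
      ∀ u ∈ Omc c R, g u - ε ≤ psiL (Omc c R) rs g u + κ * (R - ∑ a, c a * u a) := by
  obtain ⟨⟨B, κ', hΩ⟩, -⟩ := dom_A hc hR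
  have hκ0 : 0 ≤ κ := by
    have h1 : 0 ≤ (∏ a, c a) * (rs.map fun r => r ^ (d + 1)).sum := by
      refine mul_nonneg (Finset.prod_nonneg fun a _ => (hc a).le) (List.sum_nonneg ?_)
      intro x hx
      obtain ⟨r, hr, rfl⟩ := List.mem_map.1 hx
      exact pow_nonneg (hrs r hr).1.le _
    rw [← hκ] at h1
    exact nonneg_of_mul_nonneg_left h1 (by positivity)
  obtain ⟨δ, hδ, hroom⟩ := poly_room (A := fun _ : Unit => c) (b := fun _ => R)
    (fun _ a => (hc a).le) (fun _ => hR) rs (fun r hr => ⟨(hrs r hr).1, fun _ a => (hrs r hr).2 a⟩)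
  rw [← Omc_poly] at hroom
  obtain ⟨Λ, M, hΛ, hC⟩ := aff_state hΩ (fun a => κ * c a)
    (fun a => mul_nonneg hκ0 (hc a).le) (κ * R)
  have e : (fun u : Fin d → ℝ => κ * R - ∑ a, κ * c a * u a) =
      fun u => κ * (R - ∑ a, c a * u a) := by
    funext u
    rw [mul_sub, Finset.mul_sum]
    congr 1
    exact Finset.sum_congr rfl fun a _ => by ring
  rw [e] at hC
  refine exists_state hΩ rs (fun r hr => (hrs r hr).1.le) hδ hroom hC hΛ
    (fun u hu => mul_nonneg hκ0 (by linarith [hu.2])) ?_ hε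
  intro Λ' M' g hg
  obtain ⟨h1, h2, h3⟩ := st_hyp hΩ hg
  exact domA hc hR rs (fun r hr => ⟨(hrs r hr).1, fun a => ((hrs r hr).2 a).le⟩) hκ h1 h2 h3

/-- (S2) -/
theorem state_B {m : ℕ} (i : Fin (m + 1)) {c : Fin (m + 1) → ℝ} (hc : ∀ a, 0 < c a)
    (hci : c i = 1) {R r0 : ℝ} (hr0 : 0 ≤ r0) (hR : r0 < R) (rs : List ℝ)
    (hrs : ∀ r ∈ rs, 0 < r ∧ r < R - r0 ∧ ∀ a, c a * r < R) {κ : ℝ}
    (hκ : κ * (R ^ (m + 2) - r0 ^ (m + 2)) = (∏ a, c a) * (rs.map fun r => r ^ (m + 2)).sum)
    {ε : ℝ} (hε : 0 < ε) :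
    ∃ (Λ M : ℝ) (g : (Fin (m + 1) → ℝ) → ℝ), 0 ≤ Λ ∧ State (Omi i c R (R - r0)) Λ M g ∧
      ∀ u ∈ Omi i c R (R - r0), g u - ε ≤
        psiL (Omi i c R (R - r0)) rs g u + κ * (R - ∑ a, c a * u a) := by
  have hR0 : 0 < R := hr0.trans_lt hR
  obtain ⟨⟨B, κ', hΩ⟩, -⟩ := dom_B i hc hR0 (sub_pos.2 hR)
  have hκ0 : 0 ≤ κ := by
    have h1 : 0 ≤ (∏ a, c a) * (rs.map fun r => r ^ (m + 2)).sum := by
      refine mul_nonneg (Finset.prod_nonneg fun a _ => (hc a).le) (List.sum_nonneg ?_)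
      intro x hx
      obtain ⟨r, hr, rfl⟩ := List.mem_map.1 hx
      exact pow_nonneg (hrs r hr).1.le _
    rw [← hκ] at h1
    exact nonneg_of_mul_nonneg_left h1
      (sub_pos.2 (pow_lt_pow_left₀ hR hr0 (by omega)))
  obtain ⟨δ, hδ, hroom⟩ := poly_room (A := fun k : Bool => if k then c else Pi.single i 1)
    (b := fun k => if k then R else R - r0) (by
      intro k a
      cases k
      · by_cases h : a = i
        · subst h; simp
        · simp [Pi.single_apply, h]
      · simpa using (hc a).le) (by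
      intro k
      cases k
      · simpa using hR
      · simpa using hR0) rs (fun r hr => ⟨(hrs r hr).1, fun k a => by
        cases k
        · by_cases h : a = i
          · subst h
            simpa using (hrs r hr).2.1
          · simpa [Pi.single_apply, h] using hR
        · simpa using (hrs r hr).2.2 a⟩)
  rw [← Omi_poly] at hroom
  obtain ⟨Λ, M, hΛ, hC⟩ := aff_state hΩ (fun a => κ * c a)
    (fun a => mul_nonneg hκ0 (hc a).le) (κ * R)
  have e : (fun u : Fin (m + 1) → ℝ => κ * R - ∑ a, κ * c a * u a) =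
      fun u => κ * (R - ∑ a, c a * u a) := by
    funext u
    rw [mul_sub, Finset.mul_sum]
    congr 1
    exact Finset.sum_congr rfl fun a _ => by ring
  rw [e] at hC
  refine exists_state hΩ rs (fun r hr => (hrs r hr).1.le) hδ hroom hC hΛ
    (fun u hu => mul_nonneg hκ0 (by linarith [hu.2.1])) ?_ hε
  intro Λ' M' g hg
  obtain ⟨h1, h2, h3⟩ := st_hyp hΩ hg
  exact domB i hc hci hr0 hR rs
    (fun r hr => ⟨(hrs r hr).1, (hrs r hr).2.1.le, fun a => ((hrs r hr).2.2 a).le⟩) hκ h1 h2 h3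

/-- the model of helper889 -/
theorem state_M {R c : ℝ} (hc : 0 < c) (h2c : 2 * c ≤ R) (rs : List ℝ)
    (hrs : ∀ r ∈ rs, 0 < r ∧ r < c) {κ : ℝ}
    (hκ : κ * (R ^ 3 - (R - c) ^ 3) = (rs.map fun r => r ^ 3).sum)
    {ε : ℝ} (hε : 0 < ε) :
    ∃ (Λ M : ℝ) (g : (Fin 2 → ℝ) → ℝ), 0 ≤ Λ ∧ State (Om3c R c) Λ M g ∧
      ∀ u ∈ Om3c R c, g u - ε ≤ psiL (Om3c R c) rs g u + κ * C3 R c (u 0 + u 1) := by
  have hR0 : 0 < R := by linarith
  obtain ⟨⟨B, κ', hΩ⟩, -⟩ := dom_M hR0 hc
  have hκ0 : 0 ≤ κ := by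
    have h1 : 0 ≤ (rs.map fun r => r ^ 3).sum := by
      refine List.sum_nonneg ?_
      intro x hx
      obtain ⟨r, hr, rfl⟩ := List.mem_map.1 hx
      exact pow_nonneg (hrs r hr).1.le _
    rw [← hκ] at h1
    exact nonneg_of_mul_nonneg_left h1
      (sub_pos.2 (pow_lt_pow_left₀ (by linarith) (by linarith) (by norm_num)))
  obtain ⟨δ, hδ, hroom⟩ := poly_room
    (A := fun k : Bool => if k then (fun _ : Fin 2 => (1 : ℝ)) else Pi.single 0 1)
    (b := fun k => if k then (R + c) / 3 else c) (by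
      intro k a
      cases k
      · by_cases h : a = 0
        · subst h; simp
        · simp [Pi.single_apply, h]
      · simp) (by
      intro k
      cases k
      · simpa using hc
      · simp only [if_true]; linarith) rs (fun r hr => ⟨(hrs r hr).1, fun k a => by
        have h1 := (hrs r hr).2
        cases k
        · by_cases h : a = 0
          · subst h
            simpa using h1
          · simpa [Pi.single_apply, h] using hc
        · simp only [if_true, one_mul]
          linarith⟩)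
  rw [← Om3c_poly] at hroom
  obtain ⟨Λ, M, hΛ, hC⟩ := aff_state hΩ (fun _ => κ * 7)
    (fun a => mul_nonneg hκ0 (by norm_num)) (κ * (3 * R + c))
  obtain ⟨Λ', M', hΛ', hC'⟩ := aff_state hΩ (fun _ => κ * 9)
    (fun a => mul_nonneg hκ0 (by norm_num)) (κ * (3 * R + 3 * c))
  have hCC := min_state hC hC'
  have e : (fun u : Fin 2 → ℝ => min (κ * (3 * R + c) - ∑ a, κ * 7 * u a)
      (κ * (3 * R + 3 * c) - ∑ a, κ * 9 * u a)) = fun u => κ * C3 R c (u 0 + u 1) := by
    funext u
    rw [C3, mul_min_of_nonneg _ _ hκ0, Fin.sum_univ_two, Fin.sum_univ_two]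
    congr 1 <;> ring
  rw [e] at hCC
  refine exists_state hΩ rs (fun r hr => (hrs r hr).1.le) hδ hroom hCC (hΛ.trans (le_max_left _ _))
    (fun u hu => mul_nonneg hκ0 ?_) ?_ hε
  · obtain ⟨h1, h2, h3, h4⟩ := hu
    exact le_min (by linarith) (by linarith)
  intro Λ' M' g hg
  obtain ⟨h1, h2, h3⟩ := st_hyp hΩ hg
  have h4 := dom3 hc h2c rs (fun r hr => ⟨(hrs r hr).1, (hrs r hr).2.le⟩) hκ h1 h2 h3
  have h5 : ∀ u : Fin 2 → ℝ, tents rs u = (rs.map fun r => max (r - (u 0 + u 1)) 0).sum := by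
    intro u
    rw [tents_eq]
    simp only [Fin.sum_univ_two]
  simp_rw [h5]
  exact h4

end models

end Vale.Agent.P209.H519
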